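import Vale.Agent.P042.R2.H757.SpecU

set_option autoImplicit false

/-!
Row EULU: the Euler product bound of Eul2 (helper668) with a general local bound `g`.
-/

namespace Vale.Agent.P042.H757.U

open Finset
open Vale.Agent.P042.H668.E2 (Wt SS G G_nonneg Wt_nonneg W_split sum_pairs)

variable {w : ℕ → ℕ → ℝ}

lemma sum_insert_le (hw : ∀ p e, 0 ≤ w p e) {g : ℕ → ℝ}
    (h : ∀ q : ℕ, q.Prime → ∀ N, ∑ e ∈ range (N + 1), G w q e ≤ 1 + g q) {q : ℕ} (hq : q.Prime) (N : ℕ) (P : Finset ℕ) :
    ∑ n ∈ SS N (insert q P), Wt w n / n ≤ (1 + g q) * ∑ n ∈ SS N P, Wt w n / n := by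
  classical
  let φ : ℕ → ℕ × ℕ := fun n => (n.factorization q, n / q ^ n.factorization q)
  let h0 : ℕ × ℕ → ℝ := fun x => G w q x.1 * (Wt w x.2 / (x.2 : ℝ))
  have hh : ∀ x, 0 ≤ h0 x := fun x =>
    mul_nonneg (G_nonneg hw _ _) (div_nonneg (Wt_nonneg hw _) (Nat.cast_nonneg _))
  have hinj : Set.InjOn φ (SS N (insert q P)) := by
    intro a ha b hb hab
    have h1 : q ^ a.factorization q * (a / q ^ a.factorization q) = a :=
      Nat.ordProj_mul_ordCompl_eq_self a q
    have h2 : q ^ b.factorization q * (b / q ^ b.factorization q) = b :=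
      Nat.ordProj_mul_ordCompl_eq_self b q
    have h3 : a.factorization q = b.factorization q := congrArg Prod.fst hab
    have h4 : a / q ^ a.factorization q = b / q ^ b.factorization q := congrArg Prod.snd hab
    rw [← h1, ← h2, h4, h3]
  have hsub : (SS N (insert q P)).image φ ⊆ range (N + 1) ×ˢ SS N P := by
    intro x hx
    obtain ⟨n, hn, rfl⟩ := mem_image.1 hx
    unfold SS at hn
    rw [mem_filter, mem_Icc] at hn
    obtain ⟨⟨hn1, hnN⟩, hnP⟩ := hn
    have hn0 : n ≠ 0 := by omega
    rw [mem_product]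
    constructor
    · rw [mem_range]
      have := Nat.factorization_lt q hn0
      change n.factorization q < N + 1
      omega
    · unfold SS
      rw [mem_filter, mem_Icc]
      have hfac : (n / q ^ n.factorization q).factorization = n.factorization.erase q :=
        Nat.factorization_ordCompl n q
      refine ⟨⟨?_, ?_⟩, ?_⟩
      · exact Nat.ordCompl_pos q hn0
      · exact (Nat.div_le_self _ _).trans hnN
      · change (n / q ^ n.factorization q).primeFactors ⊆ P
        rw [← Nat.support_factorization, hfac, Finsupp.support_erase, Nat.support_factorization]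
        intro p hp
        have h1 := hnP (mem_of_mem_erase hp)
        rcases mem_insert.1 h1 with h2 | h2
        · exact absurd h2 (ne_of_mem_erase hp)
        · exact h2
  have h1 : ∑ n ∈ SS N (insert q P), Wt w n / n = ∑ n ∈ SS N (insert q P), h0 (φ n) := by
    refine sum_congr rfl fun n hn => ?_
    have hn1 : 1 ≤ n := by
      unfold SS at hn
      exact (mem_Icc.1 (mem_filter.1 hn).1).1
    exact W_split (by omega) hq
  rw [h1, ← sum_image hinj]
  refine (sum_le_sum_of_subset_of_nonneg hsub fun x _ _ => hh x).trans ?_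
  rw [sum_product]
  change ∑ e ∈ range (N + 1), ∑ m ∈ SS N P, G w q e * (Wt w m / (m : ℝ)) ≤ _
  rw [← sum_mul_sum]
  exact mul_le_mul_of_nonneg_right (h q hq N)
    (sum_nonneg fun m _ => div_nonneg (Wt_nonneg hw _) (Nat.cast_nonneg _))

lemma sum_SS_le (hw : ∀ p e, 0 ≤ w p e) {g : ℕ → ℝ}
    (h : ∀ q : ℕ, q.Prime → ∀ N, ∑ e ∈ range (N + 1), G w q e ≤ 1 + g q) (N : ℕ) (P : Finset ℕ) (hP : ∀ p ∈ P, p.Prime) :
    ∑ n ∈ SS N P, Wt w n / n ≤ Real.exp (∑ p ∈ P, g p) := by
  classical
  induction P using Finset.induction_on with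
  | empty =>
    rw [sum_empty, Real.exp_zero]
    have hsub : SS N ∅ ⊆ {1} := by
      intro n hn
      unfold SS at hn
      rw [mem_filter, mem_Icc] at hn
      have h1 := hn.2
      rw [subset_empty, Nat.primeFactors_eq_empty] at h1
      rw [mem_singleton]
      omega
    refine (sum_le_sum_of_subset_of_nonneg hsub fun n _ _ =>
      div_nonneg (Wt_nonneg hw _) (Nat.cast_nonneg _)).trans ?_
    simp [Wt]
  | insert q P hqP ih =>
    have hq : q.Prime := hP q (mem_insert_self _ _)
    have ih' := ih fun p hp => hP p (mem_insert_of_mem hp)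
    refine (sum_insert_le hw h hq N P).trans ?_
    rw [sum_insert hqP, Real.exp_add]
    have h1 : 1 + g q ≤ Real.exp (g q) := by
      have h2 := Real.add_one_le_exp (g q)
      linarith
    exact mul_le_mul h1 ih' (sum_nonneg fun m _ =>
      div_nonneg (Wt_nonneg hw _) (Nat.cast_nonneg _)) (Real.exp_pos _).le

/-- The Euler product bound. -/
theorem euler_bound (hw : ∀ p e, 0 ≤ w p e) {g : ℕ → ℝ}
    (h : ∀ q : ℕ, q.Prime → ∀ N, ∑ e ∈ range (N + 1), G w q e ≤ 1 + g q) (N : ℕ) :
    ∑ n ∈ Icc 1 N, Wt w n / n ≤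
      Real.exp (∑ p ∈ (Icc 1 N).filter Nat.Prime, g p) := by
  have hP : ∀ p ∈ (Icc 1 N).filter Nat.Prime, p.Prime := fun p hp => (mem_filter.1 hp).2
  refine le_trans (le_of_eq ?_) (sum_SS_le hw h N ((Icc 1 N).filter Nat.Prime) hP)
  refine sum_congr ?_ fun _ _ => rfl
  unfold SS
  refine (filter_true_of_mem fun n hn => ?_).symm
  intro p hp
  rw [mem_Icc] at hn
  rw [mem_filter, mem_Icc]
  have h1 := Nat.prime_of_mem_primeFactors hp
  exact ⟨⟨h1.one_lt.le, (Nat.le_of_mem_primeFactors hp).trans hn.2⟩, h1⟩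


lemma sum_wt3_le (T : Set ℕ) {θ z : ℝ} (hz : 1 ≤ z) {q : ℕ} (hq : q.Prime) (N : ℕ) :
    ∑ e ∈ range (N + 1), G (wt3 T θ z) q e ≤
      1 + ((z + 4) / q + open Classical in if q ∈ T then (q : ℝ) ^ (θ - 1) else 0) := by
  classical
  have hq2 : (2 : ℝ) ≤ q := by exact_mod_cast hq.two_le
  have hq0 : (0 : ℝ) < q := by linarith
  set r : ℝ := 1 / (q : ℝ) with hr
  have hr0 : 0 < r := by positivity
  have hr12 : r ≤ 1 / 2 := one_div_le_one_div_of_le (by norm_num) hq2
  have hG0 : G (wt3 T θ z) q 0 = 1 := by simp [G]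
  have hG1 : G (wt3 T θ z) q 1 ≤ z / q + if q ∈ T then (q : ℝ) ^ (θ - 1) else 0 := by
    unfold G wt3
    rw [if_neg one_ne_zero, if_pos rfl, pow_one]
    by_cases hT : q ∈ T
    · rw [if_pos hT, if_pos hT, Real.rpow_sub hq0, Real.rpow_one]
      have : 0 ≤ z / q := by positivity
      linarith
    · rw [if_neg hT, if_neg hT, add_zero]
  have hG2 : ∀ j, G (wt3 T θ z) q (j + 2) = r ^ ((j + 2) / 2) := by
    intro j
    unfold G wt3
    rw [if_neg (by omega), if_neg (by omega), hr, one_div, inv_pow, eq_comm,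
      inv_eq_iff_eq_inv, inv_div, eq_div_iff (by positivity), ← pow_add]
    congr 1
    omega
  have hT0 : 0 ≤ if q ∈ T then (q : ℝ) ^ (θ - 1) else 0 := by
    split_ifs
    · positivity
    · exact le_refl _
  rcases N with _ | k
  · rw [sum_range_one, hG0]
    have : 0 ≤ (z + 4) / q := by positivity
    linarith
  · rw [sum_range_succ', sum_range_succ', hG0]
    have h1 : ∑ j ∈ range k, G (wt3 T θ z) q (j + 1 + 1) ≤ 4 / q := by
      have h2 : ∑ j ∈ range k, G (wt3 T θ z) q (j + 1 + 1) ≤
          ∑ j ∈ range (2 * k), r ^ ((j + 2) / 2) := by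
        rw [sum_congr rfl fun j _ => hG2 j]
        exact sum_le_sum_of_subset_of_nonneg (range_mono (by omega))
          fun j _ _ => by positivity
      rw [sum_pairs] at h2
      have h3 : (∑ j ∈ range k, r ^ j) * (1 - r) = 1 - r ^ k := geom_sum_mul_neg r k
      have h4 : 0 ≤ ∑ j ∈ range k, r ^ j := sum_nonneg fun j _ => by positivity
      have h5 : 0 ≤ r ^ k := by positivity
      have h6 : ∑ j ∈ range k, r ^ j ≤ 2 := by nlinarith
      have h7 : 4 / (q : ℝ) = 2 * (r * 2) := by rw [hr]; ring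
      rw [h7]
      refine h2.trans ?_
      gcongr
    have h7 : (z + 4) / q = z / q + 4 / q := by ring
    have h8 : G (wt3 T θ z) q (0 + 1) ≤ z / q + if q ∈ T then (q : ℝ) ^ (θ - 1) else 0 := hG1
    linarith

/-- Row EULU. -/
theorem rowEulU : StEulU := by
  classical
  intro T θ N z hz hθ
  have hw : ∀ p e, 0 ≤ wt3 T θ z p e := by
    intro p e
    unfold wt3
    split_ifs
    · positivity
    · linarith
    · positivity
  have h := euler_bound hw (fun q hq N => sum_wt3_le T hz hq N) N
  refine h.trans (Real.exp_le_exp.2 (le_of_eq ?_))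
  rw [Finset.sum_add_distrib, Finset.mul_sum]
  congr 1
  · apply Finset.sum_congr rfl
    intro p _
    ring
  · rw [← Finset.sum_filter, Finset.filter_filter]

end Vale.Agent.P042.H757.U
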