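import Vale.Agent.P042.MathlibUsed

set_option autoImplicit false

/-!
P042.MultiplicativeStatistics: literal statements of the pieces (helper757).
-/

namespace Vale.Agent.P042.H757

open Finset

/-- finitely many primes of colour `v` -/
def Few {r : ℕ} (col : ℕ → Fin r) (v : Fin r) : Prop :=
  {p : ℕ | p.Prime ∧ col p = v}.Finite

/-- at least `x exp(-(log x)^c)` primes up to `x` of colour `v`, for some `c < 1` -/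
def Rich {r : ℕ} (col : ℕ → Fin r) (v : Fin r) : Prop :=
  ∃ c : ℝ, c < 1 ∧ ∃ x0 : ℕ, ∀ x : ℕ, x0 ≤ x →
    (x : ℝ) * Real.exp (-(Real.log x) ^ c) ≤
      (((Icc 1 x).filter (fun p => p.Prime ∧ col p = v)).card : ℝ)

/-- no difference `a m^k`, `m ≥ 1` -/
def MonoFree (a k : ℕ) (A : Finset ℕ) : Prop :=
  ∀ x ∈ A, ∀ y ∈ A, ∀ m : ℕ, 1 ≤ m → y ≠ x + a * m ^ k

/-- `A` is closed, inside `[1, N]`, under the exchange of a prime factor of exponent one for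
another prime of the same colour which does not divide the number -/
def Exch {r : ℕ} (col : ℕ → Fin r) (N : ℕ) (A : Finset ℕ) : Prop :=
  ∀ u p q : ℕ, p.Prime → q.Prime → col p = col q → ¬ p ∣ u → ¬ q ∣ u →
    u * p ∈ A → u * q ≤ N → u * q ∈ A

/-- the same for all prime factors -/
def ExchAll {r : ℕ} (col : ℕ → Fin r) (N : ℕ) (A : Finset ℕ) : Prop :=
  ∀ u p q : ℕ, p.Prime → q.Prime → col p = col q →
    u * p ∈ A → u * q ≤ N → u * q ∈ A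

/-- the weight of `p ^ e` -/
noncomputable def wt (z : ℝ) (p e : ℕ) : ℝ := if e = 1 then z else (p : ℝ) ^ ((e : ℝ) / 2)

/-- the weight of `n` -/
noncomputable def W (z : ℝ) (n : ℕ) : ℝ := ∏ p ∈ n.primeFactors, wt z p (n.factorization p)

/-- Row PAIR (uses final5_holds of P042/UU/Wire for X^k, pigeonhole modulo a * D). -/
def StPair : Prop :=
  ∀ a k : ℕ, 1 ≤ a → 2 ≤ k → ∀ (r : ℕ) (col : ℕ → Fin r) (v : Fin r), Rich col v →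
    ∀ δ : ℝ, 0 < δ → δ < 1 → ∃ N0 : ℕ, ∀ N : ℕ, N0 ≤ N → ∀ u D : ℕ, 1 ≤ u → 1 ≤ D →
      ((a * u * D : ℕ) : ℝ) ≤ (N : ℝ) ^ (1 - δ) →
      ∃ p q m : ℕ, p.Prime ∧ q.Prime ∧ col p = v ∧ col q = v ∧ ¬ p ∣ u ∧ ¬ q ∣ u ∧ 1 ≤ m ∧
        q = p + a * D * m ^ k ∧ u * q ≤ N

/-- Row EUL1 (Euler product). -/
def StEul : Prop :=
  ∀ (N : ℕ) (z : ℝ), 1 ≤ z →
    ∑ n ∈ Icc 1 N, W z n / n ≤
      Real.exp ((z + 4) * ∑ p ∈ (Icc 1 N).filter Nat.Prime, (1 : ℝ) / p)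

/-- Row EUL2 (crude Mertens). -/
def StMer : Prop :=
  ∃ K : ℝ, 0 < K ∧ ∀ N : ℕ, 3 ≤ N →
    ∑ p ∈ (Icc 1 N).filter Nat.Prime, (1 : ℝ) / p ≤ K * (1 + Real.log (Real.log N))

/-- Row NUM. -/
def StNum : Prop :=
  ∀ k : ℕ, 2 ≤ k → ∀ K ε : ℝ, 0 < K → 0 < ε → ∃ C : ℝ, 0 < C ∧ ∀ N : ℕ, 3 ≤ N →
    Real.exp (K * ((Real.log N) ^ ((2 * k + 1 : ℝ) / (2 * k + 2)) + 5) *
      (1 + Real.log (Real.log N))) ≤ C * (N : ℝ) ^ ε

/-- Row SMALL. -/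
def StSmall : Prop :=
  ∀ k : ℕ, 2 ≤ k → ∀ (r : ℕ) (col : ℕ → Fin r) (v : Fin r), Rich col v →
    ∃ N0 : ℕ, ∀ N : ℕ, N0 ≤ N → Nat.log 2 N + 1 <
      ((Icc 1 ⌊(Real.log N) ^ (1 + 1 / (2 * k : ℝ))⌋₊).filter
        (fun p => p.Prime ∧ col p = v)).card

/-- Row SMOOTH. -/
def StSmooth : Prop :=
  ∀ (Q N : ℕ) (A : Finset ℕ), A ⊆ Icc 1 N → (∀ n ∈ A, ∀ p : ℕ, p.Prime → p ∣ n → p ≤ Q) →
    A.card ≤ (Nat.log 2 N + 1) ^ Q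

/-- Row ALL: theorem rowAll (h : StPair) : StAll. -/
def StAll : Prop :=
  ∀ a k : ℕ, 1 ≤ a → 2 ≤ k → ∀ (r : ℕ) (col : ℕ → Fin r), (∀ v, Few col v ∨ Rich col v) →
    ∃ Q : ℕ, ∀ (N : ℕ) (A : Finset ℕ), A ⊆ Icc 1 N → ExchAll col N A → MonoFree a k A →
      ∀ n ∈ A, ∀ p : ℕ, p.Prime → p ∣ n → p ≤ Q

/-- Row RES (Siegel-Walfisz or any quantitative Dirichlet theorem of the tree). -/
def StRes : Prop :=
  ∀ (q : ℕ) (hq : 0 < q) (v : Fin q), Few (fun p => (⟨p % q, Nat.mod_lt p hq⟩ : Fin q)) v ∨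
    Rich (fun p => (⟨p % q, Nat.mod_lt p hq⟩ : Fin q)) v

/-- Row MAIN (helper757): theorem rowMain : StPair → StEul → StMer → StNum → StSmall → StMain. -/
def StMain : Prop :=
  ∀ a k : ℕ, 1 ≤ a → 2 ≤ k → ∀ (r : ℕ) (col : ℕ → Fin r), (∀ v, Few col v ∨ Rich col v) →
    ∀ ε : ℝ, 0 < ε → ∃ C : ℝ, 0 < C ∧ ∀ (N : ℕ) (A : Finset ℕ), 1 ≤ N → A ⊆ Icc 1 N →
      Exch col N A → MonoFree a k A →
      (A.card : ℝ) ≤ C * (N : ℝ) ^ ((k : ℝ) / (k + 1) + ε)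

end Vale.Agent.P042.H757
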