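import Vale.Agent.P042.R2.H757.SharpMain
import Vale.Agent.P042.R2.H342.SmallSmooth
import Vale.Agent.P042.R2.H812.Mer
import Vale.Agent.P042.R2.H812.Num
import Vale.Agent.P042.R2.H868.All
import Vale.Agent.P042.R2.H807.Lower

set_option autoImplicit false

/-!
P042.MultiplicativeStatistics: the four clauses from the rows PAIR and RES.
-/

namespace Vale.Agent.P042.H757.Fin

open Finset

/-- clause 1 -/
theorem clause1 (hpair : StPair) :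
    ∀ a k : ℕ, 1 ≤ a → 2 ≤ k → ∀ (r : ℕ) (col : ℕ → Fin r),
    (∀ v, Few col v ∨ Rich col v) →
    ∀ ε : ℝ, 0 < ε → ∃ C : ℝ, 0 < C ∧ ∀ (N : ℕ) (A : Finset ℕ), 1 ≤ N → A ⊆ Icc 1 N →
      Exch col N A → MonoFree a k A →
      (A.card : ℝ) ≤ C * (N : ℝ) ^ (1 - 1 / (k : ℝ) + ε) :=
  Sh.rowMain2 hpair H812.rowMer H812.rowNum rowSmall

/-- clause 2: multiplicative functions -/
theorem clause2 (hpair : StPair) (hres : StRes) :
    ∀ a k q : ℕ, 1 ≤ a → 2 ≤ k → 0 < q → ∀ ε : ℝ, 0 < ε → ∃ C : ℝ, 0 < C ∧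
      ∀ (M : Type) [Mul M] (f : ℕ → M),
        (∀ m n : ℕ, m.Coprime n → f (m * n) = f m * f n) →
        (∀ p p' : ℕ, p.Prime → p'.Prime → p % q = p' % q → f p = f p') →
        ∀ (S : Set M) (N : ℕ) (A : Finset ℕ), 1 ≤ N →
          (∀ n : ℕ, n ∈ A ↔ 1 ≤ n ∧ n ≤ N ∧ f n ∈ S) → MonoFree a k A →
          (A.card : ℝ) ≤ C * (N : ℝ) ^ (1 - 1 / (k : ℝ) + ε) := by
  intro a k q ha hk hq ε hε
  obtain ⟨C, hC, h⟩ := clause1 hpair a k ha hk q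
    (fun p => (⟨p % q, Nat.mod_lt p hq⟩ : Fin q)) (hres q hq) ε hε
  refine ⟨C, hC, ?_⟩
  intro M _ f hf hfp S N A hN hA hfree
  refine h N A hN (fun n hn => ?_) ?_ hfree
  · have h1 := (hA n).1 hn
    exact Finset.mem_Icc.2 ⟨h1.1, h1.2.1⟩
  · intro u p p' hp hp' hc hpu hpu' hmem hle
    have h1 := (hA _).1 hmem
    have hu : 1 ≤ u := by
      rcases Nat.eq_zero_or_pos u with h0 | h0
      · rw [h0, zero_mul] at h1
        omega
      · exact h0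
    rw [hA]
    refine ⟨Nat.mul_pos hu hp'.pos, hle, ?_⟩
    have h2 : f (u * p') = f (u * p) := by
      rw [hf u p' ((Nat.Prime.coprime_iff_not_dvd hp').2 hpu').symm,
        hf u p ((Nat.Prime.coprime_iff_not_dvd hp).2 hpu).symm,
        hfp p p' hp hp' (congrArg Fin.val hc)]
    rw [h2]
    exact h1.2.2

/-- clause 3 -/
theorem clause3 (hpair : StPair) :
    ∀ a k : ℕ, 1 ≤ a → 2 ≤ k → ∀ (r : ℕ) (col : ℕ → Fin r),
    (∀ v, Few col v ∨ Rich col v) →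
    ∃ Q : ℕ, ∀ (N : ℕ) (A : Finset ℕ), A ⊆ Icc 1 N → ExchAll col N A → MonoFree a k A →
      A.card ≤ (Nat.log 2 N + 1) ^ Q := by
  intro a k ha hk r col hcol
  obtain ⟨Q, hQ⟩ := rowAll hpair a k ha hk r col hcol
  exact ⟨Q, fun N A hAN hex hfree => rowSmooth Q N A hAN (hQ N A hAN hex hfree)⟩

/-- clause 4 -/
theorem clause4 (hres : StRes) :
    ∀ ε : ℝ, 0 < ε → ∃ c : ℝ, 0 < c ∧ ∀ N : ℕ, 1 ≤ N → ∃ A : Finset ℕ, A ⊆ Icc 1 N ∧
      (∀ (r : ℕ) (col : ℕ → Fin r), Exch col N A) ∧ MonoFree 1 2 A ∧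
      c * (N : ℝ) ^ ((1 : ℝ) / 2 - ε) ≤ (A.card : ℝ) :=
  Vale.Agent.P042.R2.H807.lower hres

end Vale.Agent.P042.H757.Fin
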