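import Vale.Agent.P042.R2.H757.SpecU
import Vale.Agent.P042.R2.H342.SmallSmooth

set_option autoImplicit false

/-!
Row SMALLU: the proof of row SMALL (helper342) in the uniform form.
-/

namespace Vale.Agent.P042.H757.U

open Finset Filter Topology

theorem rowSmallU : StSmallU := by
  intro k hk c hc x0
  have hk0 : (0 : ℝ) < 2 * k := by
    have : (0 : ℝ) < k := by exact_mod_cast (by omega : 0 < k)
    linarith
  set θ : ℝ := 1 / (2 * k : ℝ) with hθ
  have hθ0 : 0 < θ := by positivity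
  set η : ℝ := θ / (2 * (1 + θ)) with hη
  have hη0 : 0 < η := by positivity
  have hη1 : η < 1 := by
    rw [hη, div_lt_one (by positivity)]
    linarith
  have hθη : (1 + θ) * (1 - η) = 1 + θ / 2 := by
    rw [hη]
    field_simp
    ring
  -- the real variable `L = log N`
  have hL : Tendsto (fun N : ℕ => Real.log N) atTop atTop :=
    Real.tendsto_log_atTop.comp tendsto_natCast_atTop_atTop
  have hpow : Tendsto (fun L : ℝ => L ^ (1 + θ)) atTop atTop :=
    tendsto_rpow_atTop (by linarith)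
  have hpow2 : Tendsto (fun L : ℝ => L ^ (θ / 2)) atTop atTop :=
    tendsto_rpow_atTop (by linarith)
  have hfl : Tendsto (fun L : ℝ => ⌊L ^ (1 + θ)⌋₊) atTop atTop :=
    tendsto_nat_floor_atTop.comp hpow
  have hlogx : Tendsto (fun x : ℕ => Real.log x) atTop atTop := hL
  have key : ∀ᶠ L : ℝ in atTop, ∀ P : Set ℕ, RichSet c x0 P → 2 * L + 1 <
      ({p : ℕ | p ≤ ⌊L ^ (1 + θ)⌋₊ ∧ p.Prime ∧ p ∈ P}.ncard : ℝ) := by
    have e1 : ∀ᶠ x : ℕ in atTop, (Real.log x) ^ c ≤ η * Real.log x :=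
      hlogx.eventually (rpow_le_eventually hc hη0)
    filter_upwards [hfl.eventually e1, hfl.eventually (eventually_ge_atTop x0),
      hpow.eventually (eventually_ge_atTop (2 : ℝ)), hpow2.eventually (eventually_gt_atTop (6 : ℝ)),
      eventually_ge_atTop (1 : ℝ)] with L h1 h2 h3 h4 h5
    intro P hx
    set x : ℕ := ⌊L ^ (1 + θ)⌋₊ with hxdef
    have hL0 : 0 < L := by linarith
    have hxge : L ^ (1 + θ) / 2 ≤ (x : ℝ) := by
      have := Nat.sub_one_lt_floor (L ^ (1 + θ))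
      linarith
    have hx1 : (1 : ℝ) ≤ x := by linarith
    have hx0' : (0 : ℝ) < x := by linarith
    refine lt_of_lt_of_le ?_ (hx x h2)
    have h6 : (x : ℝ) ^ (1 - η) ≤ (x : ℝ) * Real.exp (-(Real.log x) ^ c) := by
      have h7 : Real.exp (-(η * Real.log x)) ≤ Real.exp (-(Real.log x) ^ c) :=
        Real.exp_le_exp.2 (by linarith)
      have h8 : (x : ℝ) ^ (1 - η) = x * Real.exp (-(η * Real.log x)) := by
        rw [Real.rpow_sub hx0', Real.rpow_one, div_eq_mul_inv, Real.exp_neg,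
          Real.rpow_def_of_pos hx0', mul_comm (Real.log (x : ℝ)) η]
      rw [h8]
      exact mul_le_mul_of_nonneg_left h7 hx0'.le
    refine lt_of_lt_of_le ?_ h6
    have h9 : (L ^ (1 + θ) / 2) ^ (1 - η) ≤ (x : ℝ) ^ (1 - η) :=
      Real.rpow_le_rpow (by positivity) hxge (by linarith)
    refine lt_of_lt_of_le ?_ h9
    have h10 : (L ^ (1 + θ) / 2) ^ (1 - η) = L ^ (1 + θ / 2) * (1 / 2 : ℝ) ^ (1 - η) := by
      rw [div_eq_mul_one_div, Real.mul_rpow (by positivity) (by norm_num), ← Real.rpow_mul hL0.le,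
        hθη]
    have h11 : (1 / 2 : ℝ) ≤ (1 / 2 : ℝ) ^ (1 - η) := by
      calc (1 / 2 : ℝ) = (1 / 2 : ℝ) ^ (1 : ℝ) := (Real.rpow_one _).symm
        _ ≤ _ := Real.rpow_le_rpow_of_exponent_ge (by norm_num) (by norm_num) (by linarith)
    have h12 : L ^ (1 + θ / 2) = L * L ^ (θ / 2) := by
      rw [Real.rpow_add hL0, Real.rpow_one]
    rw [h10, h12]
    have h13 : L * 6 < L * L ^ (θ / 2) := mul_lt_mul_of_pos_left h4 hL0
    have h14 : L * L ^ (θ / 2) * (1 / 2 : ℝ) ≤ L * L ^ (θ / 2) * (1 / 2 : ℝ) ^ (1 - η) :=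
      mul_le_mul_of_nonneg_left h11 (by positivity)
    nlinarith
  obtain ⟨N0, hN0⟩ := (((hL.eventually key).and (eventually_ge_atTop 1))).exists_forall_of_atTop
  refine ⟨N0, fun P hP N hN => ?_⟩
  obtain ⟨h1, h2⟩ := hN0 N hN
  have h3 : ((Nat.log 2 N : ℕ) : ℝ) ≤ 2 * Real.log N := by
    have h4 : (2 : ℝ) ^ (Nat.log 2 N) ≤ N := by
      exact_mod_cast Nat.pow_log_le_self 2 (by omega : N ≠ 0)
    have h5 : (Nat.log 2 N : ℝ) * Real.log 2 ≤ Real.log N := by
      rw [← Real.log_pow]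
      exact Real.log_le_log (by positivity) h4
    have h6 := Real.log_two_gt_d9
    have h7 : (0 : ℝ) ≤ (Nat.log 2 N : ℕ) := Nat.cast_nonneg _
    nlinarith
  have h8 : ((Nat.log 2 N + 1 : ℕ) : ℝ) <
      ({p : ℕ | p ≤ ⌊(Real.log N) ^ (1 + θ)⌋₊ ∧ p.Prime ∧ p ∈ P}.ncard : ℝ) := by
    have h9 := h1 P hP
    push_cast
    linarith
  exact_mod_cast h8

end Vale.Agent.P042.H757.U
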