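import Vale.Agent.P042.R2.H757.SpecA

set_option autoImplicit false

/-!
The residue classes modulo `q` outside a thin set: literal statement.
-/

namespace Vale.Agent.P042.H757.U

/-- Row RESU: theorem rowResU (h : StRes) : StResU. -/
def StResU : Prop :=
  ∀ q : ℕ, 0 < q → ∀ C0 η : ℝ, 0 ≤ C0 → 0 < η → η ≤ 1 → ∃ c : ℝ, c < 1 ∧ ∃ x0 : ℕ,
    ∀ T : Set ℕ, Thin C0 η T → ∀ p : ℕ, p.Prime → ¬ p ∣ q →
      RichSet c x0 (cls (T ∪ {l | l ∣ q}) (fun n => n % q) p)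

end Vale.Agent.P042.H757.U
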