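import Vale.Agent.P042.R2.H757.Spec
import Vale.Agent.P042.R2.H668.Eul2

set_option autoImplicit false

/-!
The uniform form with a thin exceptional set of primes: literal statements of the pieces.
-/

namespace Vale.Agent.P042.H757.U

open Finset

/-- at least `x exp (-(log x) ^ c)` primes up to `x` lie in `P`, for all `x ≥ x0` -/
def RichSet (c : ℝ) (x0 : ℕ) (P : Set ℕ) : Prop :=
  ∀ x : ℕ, x0 ≤ x →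
    (x : ℝ) * Real.exp (-(Real.log x) ^ c) ≤ ({p : ℕ | p ≤ x ∧ p.Prime ∧ p ∈ P}.ncard : ℝ)

/-- at most `C0 x ^ (1 - η)` primes up to `x` lie in `T`, for all `x ≥ 1` -/
def Thin (C0 η : ℝ) (T : Set ℕ) : Prop :=
  ∀ x : ℕ, 1 ≤ x → ({p : ℕ | p ≤ x ∧ p.Prime ∧ p ∈ T}.ncard : ℝ) ≤ C0 * (x : ℝ) ^ (1 - η)

open Classical in
lemma ncard_eq (x : ℕ) (P : Set ℕ) : {p : ℕ | p ≤ x ∧ p.Prime ∧ p ∈ P}.ncard =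
    ((Icc 1 x).filter (fun p => p.Prime ∧ p ∈ P)).card := by
  rw [← Set.ncard_coe_finset]
  congr 1
  ext p
  simp only [Set.mem_setOf_eq, Finset.coe_filter, Finset.mem_Icc]
  constructor
  · rintro ⟨h1, h2, h3⟩
    exact ⟨⟨h2.one_lt.le, h1⟩, h2, h3⟩
  · rintro ⟨⟨_, h1⟩, h2, h3⟩
    exact ⟨h1, h2, h3⟩

/-- the weight -/
noncomputable def wt3 (T : Set ℕ) (θ z : ℝ) (p e : ℕ) : ℝ :=
  open Classical in if e = 1 then (if p ∈ T then (p : ℝ) ^ θ else z) else (p : ℝ) ^ ((e + 1) / 2)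

/-- Row PAIRU: as StPair, uniform in the set of primes. -/
def StPairU : Prop :=
  ∀ a k : ℕ, 1 ≤ a → 2 ≤ k → ∀ c : ℝ, c < 1 → ∀ (x0 : ℕ) (δ : ℝ), 0 < δ → δ < 1 →
    ∃ N0 : ℕ, ∀ P : Set ℕ, RichSet c x0 P → ∀ N : ℕ, N0 ≤ N → ∀ u D : ℕ, 1 ≤ u → 1 ≤ D →
      ((a * u * D : ℕ) : ℝ) ≤ (N : ℝ) ^ (1 - δ) →
      ∃ p q m : ℕ, p.Prime ∧ q.Prime ∧ p ∈ P ∧ q ∈ P ∧ ¬ p ∣ u ∧ ¬ q ∣ u ∧ 1 ≤ m ∧
        q = p + a * D * m ^ k ∧ u * q ≤ N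

/-- Row SMALLU. -/
def StSmallU : Prop :=
  ∀ k : ℕ, 2 ≤ k → ∀ c : ℝ, c < 1 → ∀ x0 : ℕ, ∃ N0 : ℕ, ∀ P : Set ℕ, RichSet c x0 P →
    ∀ N : ℕ, N0 ≤ N → Nat.log 2 N + 1 <
      {p : ℕ | p ≤ ⌊(Real.log N) ^ (1 + 1 / (2 * k : ℝ))⌋₊ ∧ p.Prime ∧ p ∈ P}.ncard

/-- Row EULU. -/
def StEulU : Prop :=
  ∀ (T : Set ℕ) (θ : ℝ) (N : ℕ) (z : ℝ), 1 ≤ z → 0 ≤ θ →
    ∑ n ∈ Icc 1 N, Vale.Agent.P042.H668.E2.Wt (wt3 T θ z) n / n ≤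
      Real.exp ((z + 4) * ∑ p ∈ (Icc 1 N).filter Nat.Prime, (1 : ℝ) / p +
        open Classical in ∑ p ∈ (Icc 1 N).filter (fun p => p.Prime ∧ p ∈ T), (p : ℝ) ^ (θ - 1))

/-- Row THIN. -/
def StThin : Prop :=
  ∀ C0 η θ : ℝ, 0 ≤ C0 → η ≤ 1 → 0 ≤ θ → θ < η → ∃ K : ℝ, 0 ≤ K ∧ ∀ T : Set ℕ, Thin C0 η T →
    ∀ N : ℕ, open Classical in
      ∑ p ∈ (Icc 1 N).filter (fun p => p.Prime ∧ p ∈ T), (p : ℝ) ^ (θ - 1) ≤ K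

end Vale.Agent.P042.H757.U
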