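import Vale.Agent.P042.R2.H757.MainU
import Vale.Agent.P042.R2.H757.SpecR
import Vale.Agent.P042.R2.H757.SmallU
import Vale.Agent.P042.R2.H757.EulU
import Vale.Agent.P042.R2.H812.Mer
import Vale.Agent.P042.R2.H812.Num
import Vale.Agent.P042.R2.H807.Thin
import Vale.Agent.P042.R2.H807.Lower

set_option autoImplicit false

/-!
P042.MultiplicativeStatistics: the four clauses in the uniform form.
-/

namespace Vale.Agent.P042.H757.U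

open Finset

/-- clause 1 -/
theorem clause1 (hpair : StPairU) :
    ∀ a k : ℕ, 1 ≤ a → 2 ≤ k → ∀ (η C0 c : ℝ) (x0 : ℕ), 0 < η → η ≤ 1 → 0 ≤ C0 → c < 1 →
    ∀ ε : ℝ, 0 < ε → ∃ C : ℝ, 0 < C ∧ ∀ (T : Set ℕ) (col : ℕ → ℕ), Thin C0 η T →
      (∀ p : ℕ, p.Prime → p ∉ T → RichSet c x0 (cls T col p)) →
      ∀ (N : ℕ) (A : Finset ℕ), 1 ≤ N → A ⊆ Icc 1 N → ExchT T col N A → MonoFree a k A →
      (A.card : ℝ) ≤ C * (N : ℝ) ^ (1 - η / (k : ℝ) + ε) :=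
  rowMainU hpair H812.rowMer H812.rowNum rowSmallU rowEulU Vale.Agent.P042.R2.H807.rowThin

lemma thin_union (q : ℕ) (hq : 0 < q) (C0 η : ℝ) (hη1 : η ≤ 1) (T : Set ℕ)
    (hT : Thin C0 η T) : Thin (C0 + q) η (T ∪ {l | l ∣ q}) := by
  intro x hx
  have h1 : {p : ℕ | p ≤ x ∧ p.Prime ∧ p ∈ T ∪ {l | l ∣ q}} ⊆
      {p : ℕ | p ≤ x ∧ p.Prime ∧ p ∈ T} ∪ ((Icc 1 q : Finset ℕ) : Set ℕ) := by
    rintro p ⟨h1, h2, h3 | h3⟩
    · exact Or.inl ⟨h1, h2, h3⟩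
    · right
      rw [Finset.mem_coe, Finset.mem_Icc]
      exact ⟨h2.one_lt.le, Nat.le_of_dvd hq h3⟩
  have hfin : {p : ℕ | p ≤ x ∧ p.Prime ∧ p ∈ T}.Finite :=
    (Set.finite_Iic x).subset (fun p hp => hp.1)
  have h2 := (Set.ncard_le_ncard h1 (hfin.union (Finset.finite_toSet _))).trans
    (Set.ncard_union_le _ _)
  rw [Set.ncard_coe_finset, Nat.card_Icc, Nat.add_sub_cancel] at h2
  have h3 := hT x hx
  have hx1 : (1 : ℝ) ≤ x := by exact_mod_cast hx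
  have h4 : (1 : ℝ) ≤ (x : ℝ) ^ (1 - η) := Real.one_le_rpow hx1 (by linarith)
  have h5 : (({p : ℕ | p ≤ x ∧ p.Prime ∧ p ∈ T ∪ {l | l ∣ q}}.ncard : ℕ) : ℝ) ≤
      ({p : ℕ | p ≤ x ∧ p.Prime ∧ p ∈ T}.ncard : ℝ) + q := by exact_mod_cast h2
  have h6 : (q : ℝ) ≤ q * (x : ℝ) ^ (1 - η) := le_mul_of_one_le_right (Nat.cast_nonneg q) h4
  calc (({p : ℕ | p ≤ x ∧ p.Prime ∧ p ∈ T ∪ {l | l ∣ q}}.ncard : ℕ) : ℝ)
      ≤ ({p : ℕ | p ≤ x ∧ p.Prime ∧ p ∈ T}.ncard : ℝ) + q := h5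
    _ ≤ C0 * (x : ℝ) ^ (1 - η) + q * (x : ℝ) ^ (1 - η) := add_le_add h3 h6
    _ = _ := by ring

/-- clause 2: multiplicative functions -/
theorem clause2 (hpair : StPairU) (hres : StResU) :
    ∀ a k q : ℕ, 1 ≤ a → 2 ≤ k → 0 < q → ∀ η C0 : ℝ, 0 < η → η ≤ 1 → 0 ≤ C0 →
    ∀ ε : ℝ, 0 < ε → ∃ C : ℝ, 0 < C ∧ ∀ T : Set ℕ, Thin C0 η T →
      ∀ (M : Type) [Mul M] (f : ℕ → M),
        (∀ m n : ℕ, m.Coprime n → f (m * n) = f m * f n) →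
        (∀ p p' : ℕ, p.Prime → p'.Prime → p ∉ T → p' ∉ T → p % q = p' % q → f p = f p') →
        ∀ (S : Set M) (N : ℕ) (A : Finset ℕ), 1 ≤ N →
          (∀ n : ℕ, n ∈ A ↔ 1 ≤ n ∧ n ≤ N ∧ f n ∈ S) → MonoFree a k A →
          (A.card : ℝ) ≤ C * (N : ℝ) ^ (1 - η / (k : ℝ) + ε) := by
  intro a k q ha hk hq η C0 hη hη1 hC0 ε hε
  obtain ⟨c, hc, x0, hR⟩ := hres q hq C0 η hC0 hη hη1
  obtain ⟨C, hC, h⟩ := clause1 hpair a k ha hk η (C0 + q) c x0 hη hη1 (by positivity) hc ε hε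
  refine ⟨C, hC, ?_⟩
  intro T hT M _ f hf hfp S N A hN hA hfree
  refine h (T ∪ {l | l ∣ q}) (fun n => n % q) (thin_union q hq C0 η hη1 T hT) ?_ N A hN
    (fun n hn => ?_) ?_ hfree
  · intro p hp hpT
    exact hR T hT p hp (fun hpq => hpT (Or.inr hpq))
  · have h1 := (hA n).1 hn
    exact Finset.mem_Icc.2 ⟨h1.1, h1.2.1⟩
  · intro u p p' hp hp' hpT hpT' hc hpu hpu' hmem hle
    have h1 := (hA _).1 hmem
    have hu : 1 ≤ u := by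
      rcases Nat.eq_zero_or_pos u with h0 | h0
      · rw [h0, zero_mul] at h1
        omega
      · exact h0
    rw [hA]
    refine ⟨Nat.mul_pos hu hp'.pos, hle, ?_⟩
    have h2 : f (u * p') = f (u * p) := by
      rw [hf u p' ((Nat.Prime.coprime_iff_not_dvd hp').2 hpu').symm,
        hf u p ((Nat.Prime.coprime_iff_not_dvd hp).2 hpu).symm,
        hfp p p' hp hp' (fun h => hpT (Or.inl h)) (fun h => hpT' (Or.inl h)) hc]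
    rw [h2]
    exact h1.2.2

/-- clause 3 -/
theorem clause3 (hall : StAllU) :
    ∀ a k : ℕ, 1 ≤ a → 2 ≤ k → ∀ c : ℝ, c < 1 → ∀ x0 t0 : ℕ, ∃ Q : ℕ,
    ∀ (T : Set ℕ) (col : ℕ → ℕ), (∀ p ∈ T, p ≤ t0) →
      (∀ p : ℕ, p.Prime → p ∉ T → RichSet c x0 (cls T col p)) →
      ∀ (N : ℕ) (A : Finset ℕ), A ⊆ Icc 1 N → ExchAllT T col N A → MonoFree a k A →
        A.card ≤ (Nat.log 2 N + 1) ^ Q := by
  intro a k ha hk c hc x0 t0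
  obtain ⟨Q, hQ⟩ := hall a k ha hk c hc x0 t0
  exact ⟨Q, fun T col hT hcol N A hAN hex hfree =>
    rowSmooth Q N A hAN (hQ T col hT hcol N A hAN hex hfree)⟩

/-- clause 4 -/
theorem clause4 (hres : StRes) :
    ∀ ε : ℝ, 0 < ε → ∃ c : ℝ, 0 < c ∧ ∀ N : ℕ, 1 ≤ N → ∃ A : Finset ℕ, A ⊆ Icc 1 N ∧
      (∀ (T : Set ℕ) (col : ℕ → ℕ), ExchT T col N A) ∧ MonoFree 1 2 A ∧
      c * (N : ℝ) ^ ((1 : ℝ) / 2 - ε) ≤ (A.card : ℝ) := by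
  intro ε hε
  obtain ⟨c, hc, h⟩ := Vale.Agent.P042.R2.H807.lower hres ε hε
  refine ⟨c, hc, fun N hN => ?_⟩
  obtain ⟨A, h1, h2, h3, h4⟩ := h N hN
  refine ⟨A, h1, fun T col u p q hp hq _ _ _ hpu hqu hmem hle => ?_, h3, h4⟩
  exact h2 1 (fun _ => 0) u p q hp hq rfl hpu hqu hmem hle

end Vale.Agent.P042.H757.U
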