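import Vale.Agent.P042.R2.H757.Red

set_option autoImplicit false

namespace Vale.Agent.P042.H757

open Finset

/-- replace the exact primes by small ones -/
lemma exists_small {r : ℕ} (col : ℕ → Fin r) (N B : ℕ) (A : Finset ℕ) (hAN : A ⊆ Icc 1 N)
    (hex : Exch col N A)
    (hB : ∀ v, Rich col v → Nat.log 2 N + 1 <
      ((Icc 1 B).filter (fun p => p.Prime ∧ col p = v)).card)
    (s t : ℕ) (hst : s * t ∈ A) (hsq : Squarefree t) (hco : s.Coprime t)
    (hR : ∀ p, p.Prime → p ∣ t → Rich col (col p)) :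
    ∃ t' : ℕ, Squarefree t' ∧ s.Coprime t' ∧ s * t' ∈ A ∧
      t'.primeFactors.card = t.primeFactors.card ∧
      (∀ p, p.Prime → p ∣ t' → Rich col (col p) ∧ p ≤ B) := by
  classical
  let P : ℕ → Prop := fun t' => Squarefree t' ∧ s.Coprime t' ∧ s * t' ∈ A ∧
      t'.primeFactors.card = t.primeFactors.card ∧
      (∀ p, p.Prime → p ∣ t' → Rich col (col p))
  have hex' : ∃ t', P t' := ⟨t, hsq, hco, hst, rfl, hR⟩
  obtain ⟨h1, h2, h3, h4, h5⟩ := Nat.find_spec hex'
  set t' := Nat.find hex' with ht'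
  refine ⟨t', h1, h2, h3, h4, fun p hp hpt => ⟨h5 p hp hpt, ?_⟩⟩
  by_contra hpB
  rw [not_le] at hpB
  have hn := Finset.mem_Icc.1 (hAN h3)
  have hcard := card_primeFactors_le (s * t') N hn.1 hn.2
  obtain ⟨q, hq, hqn⟩ : ∃ q ∈ (Icc 1 B).filter (fun q => q.Prime ∧ col q = col p),
      q ∉ (s * t').primeFactors := by
    by_contra hcon
    push Not at hcon
    have h6 : ((Icc 1 B).filter (fun q => q.Prime ∧ col q = col p)) ⊆ (s * t').primeFactors :=
      fun q hq => hcon q hq
    have h7 := Finset.card_le_card h6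
    have h8 := hB _ (h5 p hp hpt)
    omega
  obtain ⟨hq1, hqp, hqc⟩ := Finset.mem_filter.1 hq
  have hqB := (Finset.mem_Icc.1 hq1).2
  have hqdvd : ¬ q ∣ s * t' := fun h => hqn (Nat.mem_primeFactors.2 ⟨hqp, h, by omega⟩)
  obtain ⟨t1, ht1⟩ := hpt
  have ht'0 : t' ≠ 0 := h1.ne_zero
  have ht10 : t1 ≠ 0 := by
    rintro rfl
    exact ht'0 (by rw [ht1, mul_zero])
  have hpt1 : ¬ p ∣ t1 := by
    intro h
    have h6 : p * p ∣ t' := by
      rw [ht1]
      exact Nat.mul_dvd_mul_left p h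
    have := h1 p h6
    exact hp.one_lt.ne' (Nat.isUnit_iff.1 this)
  have hps : ¬ p ∣ s := by
    intro h
    have h6 := Nat.dvd_gcd h (Dvd.intro t1 ht1.symm : p ∣ t')
    rw [h2] at h6
    exact hp.one_lt.ne' (Nat.dvd_one.1 h6)
  have hqt1 : ¬ q ∣ t1 := fun h => hqdvd (by rw [ht1]; exact (h.mul_left p).mul_left s)
  have hqs : ¬ q ∣ s := fun h => hqdvd (h.mul_right _)
  have hqlt : q < p := by omega
  have hsp : 1 ≤ s := by
    rcases Nat.eq_zero_or_pos s with h | h
    · rw [h, zero_mul] at hn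
      omega
    · exact h
  have hlt : q * t1 < t' := by
    rw [ht1]
    exact Nat.mul_lt_mul_of_pos_right hqlt (Nat.pos_of_ne_zero ht10)
  have hnew : P (q * t1) := by
    refine ⟨?_, ?_, ?_, ?_, ?_⟩
    · rw [Nat.squarefree_mul ((Nat.Prime.coprime_iff_not_dvd hqp).2 hqt1)]
      exact ⟨hqp.squarefree, h1.squarefree_of_dvd (Dvd.intro_left p ht1.symm)⟩
    · apply Nat.Coprime.mul_right
      · exact ((Nat.Prime.coprime_iff_not_dvd hqp).2 hqs).symm
      · exact Nat.Coprime.coprime_dvd_right (Dvd.intro_left p ht1.symm) h2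
    · have h6 := hex (s * t1) p q hp hqp hqc.symm
        (fun h => (hp.dvd_mul.1 h).elim hps hpt1) (fun h => (hqp.dvd_mul.1 h).elim hqs hqt1)
        (by rw [mul_assoc, mul_comm t1 p, ← ht1]; exact h3)
        (by
          have : s * t1 * q = s * (q * t1) := by ring
          rw [this]
          exact (Nat.mul_le_mul_left s hlt.le).trans hn.2)
      have h7 : s * t1 * q = s * (q * t1) := by ring
      rwa [h7] at h6
    · rw [← h4, ht1]
      rw [((Nat.Prime.coprime_iff_not_dvd hqp).2 hqt1).primeFactors_mul,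
        ((Nat.Prime.coprime_iff_not_dvd hp).2 hpt1).primeFactors_mul,
        Finset.card_union_of_disjoint
          ((Nat.Prime.coprime_iff_not_dvd hqp).2 hqt1).disjoint_primeFactors,
        Finset.card_union_of_disjoint
          ((Nat.Prime.coprime_iff_not_dvd hp).2 hpt1).disjoint_primeFactors,
        hqp.primeFactors, hp.primeFactors, Finset.card_singleton, Finset.card_singleton]
    · intro l hl hlt'
      rcases hl.dvd_mul.1 hlt' with h | h
      · rw [(Nat.prime_dvd_prime_iff_eq hl hqp).1 h, hqc]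
        exact h5 p hp (Dvd.intro t1 ht1.symm)
      · exact h5 l hl (h.trans (Dvd.intro_left p ht1.symm))
  exact Nat.find_min hex' hlt hnew

/-- the `k`-th power multiple of `s` -/
noncomputable def ws (k s : ℕ) : ℕ := ∏ p ∈ s.primeFactors, p ^ ((s.factorization p + k - 1) / k)

lemma dvd_ws (k s : ℕ) (hk : 1 ≤ k) (hs : 1 ≤ s) : s ∣ ws k s ^ k := by
  unfold ws
  rw [← Finset.prod_pow]
  have h1 : ∏ p ∈ s.primeFactors, p ^ s.factorization p = s :=
    Nat.prod_factorization_pow_eq_self (by omega)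
  calc s = ∏ p ∈ s.primeFactors, p ^ s.factorization p := h1.symm
    _ ∣ _ := by
        apply Finset.prod_dvd_prod_of_dvd
        intro p _
        rw [← pow_mul]
        apply pow_dvd_pow
        have h2 := Nat.div_add_mod (s.factorization p + k - 1) k
        have h3 := Nat.mod_lt (s.factorization p + k - 1) (by omega : k > 0)
        rw [mul_comm]
        omega

lemma ws_pos (k s : ℕ) : 1 ≤ ws k s :=
  Finset.prod_pos (fun _ hp => pow_pos (Nat.prime_of_mem_primeFactors hp).pos _)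

/-- one prime -/
lemma one_prime (k p e : ℕ) (hk : 2 ≤ k) (hp : 2 ≤ p) (he : 2 ≤ e) :
    (((p ^ ((e + k - 1) / k) : ℕ) : ℝ) ^ k) ^ ((1 : ℝ) / (k + 1)) ≤ (p : ℝ) ^ ((e : ℝ) / 2) := by
  have hp0 : (0 : ℝ) ≤ p := Nat.cast_nonneg p
  have hp1 : (1 : ℝ) ≤ p := by exact_mod_cast (by omega : 1 ≤ p)
  rw [Nat.cast_pow, ← pow_mul, ← Real.rpow_natCast, ← Real.rpow_mul hp0]
  apply Real.rpow_le_rpow_of_exponent_le hp1
  have h1 : 2 * ((e + k - 1) / k * k) ≤ e * (k + 1) := by
    have h2 := Nat.div_mul_le_self (e + k - 1) k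
    have h3 : 2 * (e + k - 1) ≤ e * (k + 1) := by
      obtain ⟨e', rfl⟩ := Nat.exists_eq_add_of_le he
      obtain ⟨k', rfl⟩ := Nat.exists_eq_add_of_le hk
      have : 2 + e' + (2 + k') - 1 = 3 + e' + k' := by omega
      rw [this]
      nlinarith [Nat.zero_le (e' * k')]
    omega
  have hk0 : (0 : ℝ) < (k : ℝ) + 1 := by positivity
  rw [mul_one_div, div_le_div_iff₀ hk0 (by norm_num)]
  have h4 : ((2 * ((e + k - 1) / k * k) : ℕ) : ℝ) ≤ ((e * (k + 1) : ℕ) : ℝ) := by exact_mod_cast h1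
  push_cast at h4 ⊢
  linarith only [h4]

/-- bound for `ws` -/
lemma ws_bound (k s : ℕ) (hk : 2 ≤ k) (z : ℝ) (hz : 1 ≤ z) (F : Finset ℕ)
    (hF : ∀ p ∈ F, 1 ≤ p) (hs : ∀ p, p.Prime → s.factorization p = 1 → p ∈ F) :
    (((ws k s : ℕ) : ℝ) ^ k) ^ ((1 : ℝ) / (k + 1)) ≤ (∏ p ∈ F, (p : ℝ)) * W z s := by
  classical
  have h1 : (((ws k s : ℕ) : ℝ) ^ k) ^ ((1 : ℝ) / (k + 1)) =
      ∏ p ∈ s.primeFactors,
        (((p ^ ((s.factorization p + k - 1) / k) : ℕ) : ℝ) ^ k) ^ ((1 : ℝ) / (k + 1)) := by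
    unfold ws
    rw [Nat.cast_prod, ← Finset.prod_pow, ← Real.finsetProd_rpow]
    intro p _
    positivity
  rw [h1]
  have h2 : ∀ p ∈ s.primeFactors,
      (((p ^ ((s.factorization p + k - 1) / k) : ℕ) : ℝ) ^ k) ^ ((1 : ℝ) / (k + 1)) ≤
        (if p ∈ F then (p : ℝ) else 1) * wt z p (s.factorization p) := by
    intro p hp
    have hpp := Nat.prime_of_mem_primeFactors hp
    have hp1 : (1 : ℝ) ≤ p := by exact_mod_cast hpp.one_lt.le
    have hf1 : (1 : ℝ) ≤ if p ∈ F then (p : ℝ) else 1 := by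
      split_ifs
      · exact hp1
      · exact le_refl _
    have hpos : 1 ≤ s.factorization p :=
      hpp.factorization_pos_of_dvd (Nat.mem_primeFactors.1 hp).2.2 (Nat.dvd_of_mem_primeFactors hp)
    rcases eq_or_lt_of_le hpos with he | he
    · rw [if_pos (hs p hpp he.symm), ← he]
      unfold wt
      rw [if_pos rfl]
      have h3 : (1 + k - 1) / k = 1 := by
        rw [Nat.add_sub_cancel_left]
        exact Nat.div_self (by omega)
      rw [h3, pow_one]
      have h4 : ((p : ℝ) ^ k) ^ ((1 : ℝ) / (k + 1)) ≤ (p : ℝ) ^ (1 : ℝ) := by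
        rw [← Real.rpow_natCast, ← Real.rpow_mul (by linarith only [hp1])]
        apply Real.rpow_le_rpow_of_exponent_le hp1
        rw [mul_one_div, div_le_one (by positivity)]
        linarith
      rw [Real.rpow_one] at h4
      nlinarith only [h4, hz, hp1]
    · have h3 := one_prime k p (s.factorization p) hk hpp.two_le (by omega)
      refine h3.trans ?_
      unfold wt
      rw [if_neg (show ¬ s.factorization p = 1 by omega)]
      have h4 : (0 : ℝ) ≤ (p : ℝ) ^ ((s.factorization p : ℝ) / 2) := by positivity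
      exact le_mul_of_one_le_left h4 hf1
  have h3 : ∏ p ∈ s.primeFactors,
        (((p ^ ((s.factorization p + k - 1) / k) : ℕ) : ℝ) ^ k) ^ ((1 : ℝ) / (k + 1)) ≤
      ∏ p ∈ s.primeFactors, ((if p ∈ F then (p : ℝ) else 1) * wt z p (s.factorization p)) :=
    Finset.prod_le_prod (fun p _ => by positivity) h2
  refine h3.trans ?_
  rw [Finset.prod_mul_distrib]
  have hW0 : 0 ≤ ∏ p ∈ s.primeFactors, wt z p (s.factorization p) := by
    apply Finset.prod_nonneg
    intro p _
    unfold wt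
    split_ifs
    · linarith only [hz]
    · positivity
  apply mul_le_mul_of_nonneg_right _ hW0
  rw [← Finset.prod_filter, ← Nat.cast_prod, ← Nat.cast_prod]
  apply Nat.cast_le.2
  apply Finset.prod_le_prod_of_subset_of_one_le'
  · intro p hp
    exact (Finset.mem_filter.1 hp).2
  · intro p hp _
    exact hF p hp

end Vale.Agent.P042.H757
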