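import Vale.Agent.P042.R2.H757.Sharp
import Vale.Agent.P042.R2.H757.SpecU

set_option autoImplicit false

/-!
The uniform form: reduction and the inequality for one element.
-/

namespace Vale.Agent.P042.H757.U

open Finset
open Vale.Agent.P042.H668.E2 (Wt)

/-- the primes outside `T` of the colour of `p` -/
def cls (T : Set ℕ) (col : ℕ → ℕ) (p : ℕ) : Set ℕ := {q | q ∉ T ∧ col q = col p}

/-- `A` is closed, inside `[1, N]`, under the exchange of a prime factor of exponent one outside `T`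
for another prime outside `T` of the same colour which does not divide the number -/
def ExchT (T : Set ℕ) (col : ℕ → ℕ) (N : ℕ) (A : Finset ℕ) : Prop :=
  ∀ u p q : ℕ, p.Prime → q.Prime → p ∉ T → q ∉ T → col p = col q → ¬ p ∣ u → ¬ q ∣ u →
    u * p ∈ A → u * q ≤ N → u * q ∈ A

/-- replace the exact primes by small ones -/
lemma exists_smallU (T : Set ℕ) (col : ℕ → ℕ) (N B : ℕ) (A : Finset ℕ) (hAN : A ⊆ Icc 1 N)
    (hex : ExchT T col N A)
    (hB : ∀ p, p.Prime → p ∉ T → Nat.log 2 N + 1 <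
      {q : ℕ | q ≤ B ∧ q.Prime ∧ q ∈ cls T col p}.ncard)
    (s t : ℕ) (hst : s * t ∈ A) (hsq : Squarefree t) (hco : s.Coprime t)
    (hR : ∀ p, p.Prime → p ∣ t → p ∉ T) :
    ∃ t' : ℕ, Squarefree t' ∧ s.Coprime t' ∧ s * t' ∈ A ∧
      t'.primeFactors.card = t.primeFactors.card ∧
      (∀ p, p.Prime → p ∣ t' → p ∉ T ∧ p ≤ B) := by
  classical
  let P : ℕ → Prop := fun t' => Squarefree t' ∧ s.Coprime t' ∧ s * t' ∈ A ∧
      t'.primeFactors.card = t.primeFactors.card ∧
      (∀ p, p.Prime → p ∣ t' → p ∉ T)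
  have hex' : ∃ t', P t' := ⟨t, hsq, hco, hst, rfl, hR⟩
  obtain ⟨h1, h2, h3, h4, h5⟩ := Nat.find_spec hex'
  set t' := Nat.find hex' with ht'
  refine ⟨t', h1, h2, h3, h4, fun p hp hpt => ⟨h5 p hp hpt, ?_⟩⟩
  by_contra hpB
  rw [not_le] at hpB
  have hn := Finset.mem_Icc.1 (hAN h3)
  have hcard := card_primeFactors_le (s * t') N hn.1 hn.2
  obtain ⟨q, hq, hqn⟩ : ∃ q ∈ (Icc 1 B).filter (fun q => q.Prime ∧ q ∈ cls T col p),
      q ∉ (s * t').primeFactors := by
    by_contra hcon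
    push Not at hcon
    have h6 : ((Icc 1 B).filter (fun q => q.Prime ∧ q ∈ cls T col p)) ⊆ (s * t').primeFactors :=
      fun q hq => hcon q hq
    have h7 := Finset.card_le_card h6
    have h8 := hB p hp (h5 p hp hpt)
    rw [ncard_eq] at h8
    omega
  obtain ⟨hq1, hqp, hqT, hqc⟩ := Finset.mem_filter.1 hq
  have hqB := (Finset.mem_Icc.1 hq1).2
  have hqdvd : ¬ q ∣ s * t' := fun h => hqn (Nat.mem_primeFactors.2 ⟨hqp, h, by omega⟩)
  obtain ⟨t1, ht1⟩ := hpt
  have ht'0 : t' ≠ 0 := h1.ne_zero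
  have ht10 : t1 ≠ 0 := by
    rintro rfl
    exact ht'0 (by rw [ht1, mul_zero])
  have hpt1 : ¬ p ∣ t1 := by
    intro h
    have h6 : p * p ∣ t' := by
      rw [ht1]
      exact Nat.mul_dvd_mul_left p h
    have := h1 p h6
    exact hp.one_lt.ne' (Nat.isUnit_iff.1 this)
  have hps : ¬ p ∣ s := by
    intro h
    have h6 := Nat.dvd_gcd h (Dvd.intro t1 ht1.symm : p ∣ t')
    rw [h2] at h6
    exact hp.one_lt.ne' (Nat.dvd_one.1 h6)
  have hqt1 : ¬ q ∣ t1 := fun h => hqdvd (by rw [ht1]; exact (h.mul_left p).mul_left s)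
  have hqs : ¬ q ∣ s := fun h => hqdvd (h.mul_right _)
  have hqlt : q < p := by omega
  have hsp : 1 ≤ s := by
    rcases Nat.eq_zero_or_pos s with h | h
    · rw [h, zero_mul] at hn
      omega
    · exact h
  have hlt : q * t1 < t' := by
    rw [ht1]
    exact Nat.mul_lt_mul_of_pos_right hqlt (Nat.pos_of_ne_zero ht10)
  have hnew : P (q * t1) := by
    refine ⟨?_, ?_, ?_, ?_, ?_⟩
    · rw [Nat.squarefree_mul ((Nat.Prime.coprime_iff_not_dvd hqp).2 hqt1)]
      exact ⟨hqp.squarefree, h1.squarefree_of_dvd (Dvd.intro_left p ht1.symm)⟩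
    · apply Nat.Coprime.mul_right
      · exact ((Nat.Prime.coprime_iff_not_dvd hqp).2 hqs).symm
      · exact Nat.Coprime.coprime_dvd_right (Dvd.intro_left p ht1.symm) h2
    · have h6 := hex (s * t1) p q hp hqp (h5 p hp (Dvd.intro t1 ht1.symm)) hqT hqc.symm
        (fun h => (hp.dvd_mul.1 h).elim hps hpt1) (fun h => (hqp.dvd_mul.1 h).elim hqs hqt1)
        (by rw [mul_assoc, mul_comm t1 p, ← ht1]; exact h3)
        (by
          have : s * t1 * q = s * (q * t1) := by ring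
          rw [this]
          exact (Nat.mul_le_mul_left s hlt.le).trans hn.2)
      have h7 : s * t1 * q = s * (q * t1) := by ring
      rwa [h7] at h6
    · rw [← h4, ht1]
      rw [((Nat.Prime.coprime_iff_not_dvd hqp).2 hqt1).primeFactors_mul,
        ((Nat.Prime.coprime_iff_not_dvd hp).2 hpt1).primeFactors_mul,
        Finset.card_union_of_disjoint
          ((Nat.Prime.coprime_iff_not_dvd hqp).2 hqt1).disjoint_primeFactors,
        Finset.card_union_of_disjoint
          ((Nat.Prime.coprime_iff_not_dvd hp).2 hpt1).disjoint_primeFactors,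
        hqp.primeFactors, hp.primeFactors, Finset.card_singleton, Finset.card_singleton]
    · intro l hl hlt'
      rcases hl.dvd_mul.1 hlt' with h | h
      · rw [(Nat.prime_dvd_prime_iff_eq hl hqp).1 h]
        exact hqT
      · exact h5 l hl (h.trans (Dvd.intro_left p ht1.symm))
  exact Nat.find_min hex' hlt hnew

/-- multiplicativity of the weight -/
lemma Wt_mul (w : ℕ → ℕ → ℝ) {s t : ℕ} (h : s.Coprime t) : Wt w (s * t) = Wt w s * Wt w t := by
  unfold Wt
  rw [h.primeFactors_mul, Finset.prod_union h.disjoint_primeFactors]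
  congr 1
  · apply Finset.prod_congr rfl
    intro p hp
    rw [Nat.factorization_mul_apply_of_coprime h]
    have h2 : t.factorization p = 0 := by
      apply Nat.factorization_eq_zero_of_not_dvd
      intro h3
      have hp' := Nat.prime_of_mem_primeFactors hp
      have h4 := Nat.dvd_gcd (Nat.dvd_of_mem_primeFactors hp) h3
      rw [h] at h4
      exact hp'.one_lt.ne' (Nat.dvd_one.1 h4)
    rw [h2, add_zero]
  · apply Finset.prod_congr rfl
    intro p hp
    rw [Nat.factorization_mul_apply_of_coprime h]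
    have h2 : s.factorization p = 0 := by
      apply Nat.factorization_eq_zero_of_not_dvd
      intro h3
      have hp' := Nat.prime_of_mem_primeFactors hp
      have h4 := Nat.dvd_gcd h3 (Nat.dvd_of_mem_primeFactors hp)
      rw [h] at h4
      exact hp'.one_lt.ne' (Nat.dvd_one.1 h4)
    rw [h2, zero_add]

lemma Wt_squarefree (T : Set ℕ) (θ z : ℝ) {t : ℕ} (h : Squarefree t)
    (hT : ∀ p, p.Prime → p ∣ t → p ∉ T) : Wt (wt3 T θ z) t = z ^ t.primeFactors.card := by
  unfold Wt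
  rw [← Finset.prod_const]
  apply Finset.prod_congr rfl
  intro p hp
  have h1 : t.factorization p = 1 := by
    have h2 : t.factorization p ≤ 1 := h.natFactorization_le_one p
    have h3 : 1 ≤ t.factorization p :=
      (Nat.prime_of_mem_primeFactors hp).factorization_pos_of_dvd h.ne_zero
        (Nat.dvd_of_mem_primeFactors hp)
    omega
  unfold wt3
  rw [h1, if_pos rfl, if_neg (hT p (Nat.prime_of_mem_primeFactors hp) (Nat.dvd_of_mem_primeFactors hp))]

lemma wt3_nonneg (T : Set ℕ) (θ : ℝ) {z : ℝ} (hz : 0 ≤ z) (p e : ℕ) : 0 ≤ wt3 T θ z p e := by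
  unfold wt3
  split_ifs
  · positivity
  · exact hz
  · positivity

/-- bound for `ws` -/
lemma ws_bound3 (T : Set ℕ) (k s : ℕ) (β : ℝ) (hβ : β * k ≤ 1) (hβ0 : 0 ≤ β) (hk : 2 ≤ k) (z : ℝ)
    (hs : ∀ p, p.Prime → s.factorization p = 1 → p ∈ T) :
    (((ws k s : ℕ) : ℝ) ^ k) ^ β ≤ Wt (wt3 T (β * k) z) s := by
  classical
  have h1 : (((ws k s : ℕ) : ℝ) ^ k) ^ β =
      ∏ p ∈ s.primeFactors,
        (((p ^ ((s.factorization p + k - 1) / k) : ℕ) : ℝ) ^ k) ^ β := by
    unfold ws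
    rw [Nat.cast_prod, ← Finset.prod_pow, ← Real.finsetProd_rpow]
    intro p _
    positivity
  rw [h1]
  unfold Wt
  apply Finset.prod_le_prod (fun p _ => by positivity)
  intro p hp
  have hpp := Nat.prime_of_mem_primeFactors hp
  have hp0 : (0 : ℝ) ≤ p := Nat.cast_nonneg p
  have hpos : 1 ≤ s.factorization p :=
    hpp.factorization_pos_of_dvd (Nat.mem_primeFactors.1 hp).2.2 (Nat.dvd_of_mem_primeFactors hp)
  rcases eq_or_lt_of_le hpos with he | he
  · rw [← he]
    unfold wt3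
    rw [if_pos rfl, if_pos (hs p hpp he.symm)]
    have h3 : (1 + k - 1) / k = 1 := by
      rw [Nat.add_sub_cancel_left]
      exact Nat.div_self (by omega)
    rw [h3, pow_one, ← Real.rpow_natCast, ← Real.rpow_mul hp0, mul_comm β]
  · have h3 := Sh.one_prime2 k p (s.factorization p) β hβ hβ0 hk hpp.two_le hpos
    refine h3.trans (le_of_eq ?_)
    unfold wt3
    rw [if_neg (show ¬ s.factorization p = 1 by omega)]

/-- the inequality for one element -/
lemma per_nU (T : Set ℕ) (col : ℕ → ℕ) (a k : ℕ) (ha : 1 ≤ a) (hk : 2 ≤ k) (N B : ℕ)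
    (Br : ℝ) (hBr : 1 ≤ Br) (hBB : (B : ℝ) ≤ Br) (δ : ℝ) (hδ : 0 < δ)
    (β : ℝ) (hβk : β * k ≤ 1) (hβ0 : 0 < β)
    (A : Finset ℕ) (hAN : A ⊆ Icc 1 N)
    (hex : ExchT T col N A) (hfree : MonoFree a k A)
    (hB : ∀ p, p.Prime → p ∉ T → Nat.log 2 N + 1 <
      {q : ℕ | q ≤ B ∧ q.Prime ∧ q ∈ cls T col p}.ncard)
    (hpair : ∀ l, l.Prime → l ∉ T → ∀ u D : ℕ, 1 ≤ u → 1 ≤ D →
      ((a * u * D : ℕ) : ℝ) ≤ (N : ℝ) ^ (1 - δ) →
      ∃ p q m : ℕ, p.Prime ∧ q.Prime ∧ p ∈ cls T col l ∧ q ∈ cls T col l ∧ ¬ p ∣ u ∧ ¬ q ∣ u ∧ 1 ≤ m ∧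
        q = p + a * D * m ^ k ∧ u * q ≤ N)
    (n : ℕ) (hn : n ∈ A) :
    (1 : ℝ) ≤ (a : ℝ) * ((N : ℝ) / n) * (N : ℝ) ^ (-((1 - δ) * β)) *
      Wt (wt3 T (β * k) (Br ^ ((k : ℝ) * β))) n := by
  classical
  obtain ⟨hn1, hnN⟩ := Finset.mem_Icc.1 (hAN hn)
  obtain ⟨s, t, hst, hs1, ht1, hsq, hco, hR, hs⟩ := decomp (fun p => p ∉ T) n hn1
  obtain ⟨t', h1, h2, h3, h4, h5⟩ := exists_smallU T col N B A hAN hex hB s t (by rw [hst]; exact hn)
    hsq hco hR
  have hk2 : (2 : ℝ) ≤ k := by exact_mod_cast hk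
  have hβ1 : β ≤ 1 := by nlinarith only [hβk, hβ0, hk2]
  set z : ℝ := Br ^ ((k : ℝ) * β) with hz
  have hz1 : 1 ≤ z := Real.one_le_rpow hBr (by positivity)
  have hWn : Wt (wt3 T (β * k) z) n = Wt (wt3 T (β * k) z) s * z ^ t.primeFactors.card := by
    rw [← hst, Wt_mul _ hco, Wt_squarefree T _ z hsq hR]
  have hws := ws_bound3 T k s β hβk hβ0.le hk z (fun p hp h => not_not.1 (hs p hp h))
  have hN1 : (1 : ℝ) ≤ N := by exact_mod_cast hn1.trans hnN
  have hN0 : (0 : ℝ) < N := by linarith only [hN1]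
  have hn1r : (1 : ℝ) ≤ n := by exact_mod_cast hn1
  have hn0r : (0 : ℝ) < n := by linarith only [hn1r]
  have hnNr : (n : ℝ) ≤ N := by exact_mod_cast hnN
  have ha1 : (1 : ℝ) ≤ a := by exact_mod_cast ha
  have hWs0 : 0 ≤ Wt (wt3 T (β * k) z) s :=
    Finset.prod_nonneg (fun p _ => wt3_nonneg T _ (by linarith only [hz1]) p _)
  have key : (N : ℝ) ^ ((1 - δ) * β) * n ≤ a * N * Wt (wt3 T (β * k) z) n := by
    rcases Nat.eq_zero_or_pos t.primeFactors.card with hκ | hκ
    · have h6 := real_aux N n β δ hn1r hnNr hβ0.le hβ1 hδ.le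
      refine h6.trans ?_
      have ht0 : t = 1 := by
        rw [Finset.card_eq_zero, Nat.primeFactors_eq_empty] at hκ
        omega
      have hns : n = s := by rw [← hst, ht0, mul_one]
      have h7 : (n : ℝ) ^ β ≤ (((ws k s : ℕ) : ℝ) ^ k) ^ β := by
        apply Real.rpow_le_rpow hn0r.le _ hβ0.le
        rw [hns]
        have := Nat.le_of_dvd (pow_pos (ws_pos k s) k) (dvd_ws k s (by omega) hs1)
        exact_mod_cast this
      rw [hWn, hκ, pow_zero, mul_one]
      have h8 : (n : ℝ) ^ β ≤ Wt (wt3 T (β * k) z) s := h7.trans hws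
      calc (N : ℝ) * (n : ℝ) ^ β ≤ N * Wt (wt3 T (β * k) z) s := mul_le_mul_of_nonneg_left h8 hN0.le
        _ = 1 * (N * Wt (wt3 T (β * k) z) s) := by ring
        _ ≤ a * (N * Wt (wt3 T (β * k) z) s) := mul_le_mul_of_nonneg_right ha1 (by positivity)
        _ = _ := by ring
    · rw [← h4] at hκ
      obtain ⟨p1, hp1⟩ := Finset.card_pos.1 hκ
      have hp1p := Nat.prime_of_mem_primeFactors hp1
      obtain ⟨t1, ht1'⟩ := Nat.dvd_of_mem_primeFactors hp1
      have ht'0 : t' ≠ 0 := h1.ne_zero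
      have ht10 : 1 ≤ t1 := by
        rcases Nat.eq_zero_or_pos t1 with h | h
        · exact absurd (by rw [ht1', h, mul_zero]) ht'0
        · exact h
      have hp1t1 : ¬ p1 ∣ t1 := by
        intro h
        have h6 : p1 * p1 ∣ t' := by
          rw [ht1']
          exact Nat.mul_dvd_mul_left p1 h
        exact hp1p.one_lt.ne' (Nat.isUnit_iff.1 (h1 p1 h6))
      have hp1s : ¬ p1 ∣ s := by
        intro h
        have h6 := Nat.dvd_gcd h (Dvd.intro t1 ht1'.symm : p1 ∣ t')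
        rw [h2] at h6
        exact hp1p.one_lt.ne' (Nat.dvd_one.1 h6)
      set u := s * t1 with hu
      set w := ws k s * t1 with hw
      have hu1 : 1 ≤ u := Nat.mul_pos hs1 ht10
      have hw1 : 1 ≤ w := Nat.mul_pos (ws_pos k s) ht10
      have huw : u ∣ w ^ k := by
        rw [hw, mul_pow, hu]
        exact Nat.mul_dvd_mul (dvd_ws k s (by omega) hs1) (dvd_pow_self t1 (by omega))
      obtain ⟨D, hD⟩ := huw
      have hD1 : 1 ≤ D := by
        rcases Nat.eq_zero_or_pos D with h | h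
        · rw [h, mul_zero] at hD
          have := pow_pos (show 0 < w from hw1) k
          omega
        · exact h
      have hup1 : u * p1 = s * t' := by rw [hu, ht1']; ring
      have hlt : (N : ℝ) ^ (1 - δ) < ((a * w ^ k : ℕ) : ℝ) := by
        by_contra hcon
        rw [not_lt] at hcon
        obtain ⟨p, q, m, hp, hq, ⟨hpT, hcp⟩, ⟨hqT, hcq⟩, hpu, hqu, hm, hqe, huq⟩ := hpair p1 hp1p
          (h5 p1 hp1p (Nat.dvd_of_mem_primeFactors hp1)).1 u D hu1 hD1
          (by rw [mul_assoc, ← hD]; exact hcon)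
        have hp1u : ¬ p1 ∣ u := fun h => (hp1p.dvd_mul.1 h).elim hp1s hp1t1
        have hA1 : u * p1 ∈ A := by rw [hup1]; exact h3
        have hpq : p ≤ q := by rw [hqe]; exact Nat.le_add_right _ _
        have hp1T := (h5 p1 hp1p (Nat.dvd_of_mem_primeFactors hp1)).1
        have hA2 := hex u p1 p hp1p hp hp1T hpT hcp.symm hp1u hpu hA1
          ((Nat.mul_le_mul_left u hpq).trans huq)
        have hA3 := hex u p1 q hp1p hq hp1T hqT hcq.symm hp1u hqu hA1 huq
        refine hfree _ hA2 _ hA3 (w * m) (Nat.mul_pos hw1 hm) ?_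
        rw [hqe, mul_pow, hD]
        ring
      have h6 : ((N : ℝ) ^ (1 - δ)) ^ β ≤ (((a * w ^ k : ℕ) : ℝ)) ^ β :=
        Real.rpow_le_rpow (Real.rpow_nonneg hN0.le _) hlt.le hβ0.le
      rw [← Real.rpow_mul hN0.le] at h6
      have h7 : (((a * w ^ k : ℕ) : ℝ)) ^ β =
          (a : ℝ) ^ β * ((((ws k s : ℕ) : ℝ) ^ k) ^ β * ((t1 : ℝ) ^ k) ^ β) := by
        rw [hw, mul_pow]
        push_cast
        rw [Real.mul_rpow (Nat.cast_nonneg a) (by positivity),
          Real.mul_rpow (by positivity) (by positivity)]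
      have h8 : (a : ℝ) ^ β ≤ a := by
        calc (a : ℝ) ^ β ≤ (a : ℝ) ^ (1 : ℝ) := Real.rpow_le_rpow_of_exponent_le ha1 hβ1
          _ = a := Real.rpow_one _
      have h9 : ((t1 : ℝ) ^ k) ^ β ≤ z ^ t.primeFactors.card := by
        have h10 : (t1 : ℝ) ≤ Br ^ t'.primeFactors.card := by
          have h11 : (t1 : ℝ) ≤ t' := by
            have : t1 ≤ t' := by
              rw [ht1']
              exact Nat.le_mul_of_pos_left t1 hp1p.pos
            exact_mod_cast this
          refine h11.trans (squarefree_le_pow t' h1 Br (fun p hp hpt => ?_))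
          have : (p : ℝ) ≤ B := by exact_mod_cast (h5 p hp hpt).2
          exact this.trans hBB
        rw [h4] at h10
        have h12 : ((t1 : ℝ) ^ k) ^ β ≤ (((Br ^ t.primeFactors.card) : ℝ) ^ k) ^ β := by
          apply Real.rpow_le_rpow (by positivity) _ hβ0.le
          exact pow_le_pow_left₀ (Nat.cast_nonneg t1) h10 k
        refine h12.trans (le_of_eq ?_)
        have hBr0 : 0 ≤ Br := by linarith only [hBr]
        rw [hz, ← Real.rpow_natCast, ← Real.rpow_natCast, ← Real.rpow_natCast,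
          ← Real.rpow_mul hBr0, ← Real.rpow_mul hBr0, ← Real.rpow_mul hBr0]
        congr 1
        ring
      rw [h7] at h6
      have h13 : (N : ℝ) ^ ((1 - δ) * β) ≤ a * (Wt (wt3 T (β * k) z) s * z ^ t.primeFactors.card) := by
        refine h6.trans ?_
        apply mul_le_mul h8 _ (by positivity) (by linarith only [ha1])
        exact mul_le_mul hws h9 (by positivity) (by positivity)
      rw [hWn]
      calc (N : ℝ) ^ ((1 - δ) * β) * n ≤ (a * (Wt (wt3 T (β * k) z) s * z ^ t.primeFactors.card)) * N :=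
            mul_le_mul h13 hnNr hn0r.le (by positivity)
        _ = _ := by ring
  have h14 : (0 : ℝ) < (N : ℝ) ^ ((1 - δ) * β) := Real.rpow_pos_of_pos hN0 _
  rw [Real.rpow_neg hN0.le]
  rw [show (a : ℝ) * ((N : ℝ) / n) * ((N : ℝ) ^ ((1 - δ) * β))⁻¹ * Wt (wt3 T (β * k) z) n =
    (a * N * Wt (wt3 T (β * k) z) n) / ((N : ℝ) ^ ((1 - δ) * β) * n) by
      field_simp]
  rw [le_div_iff₀ (by positivity), one_mul]
  exact key

end Vale.Agent.P042.H757.U
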