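import Vale.Agent.P042.R2.H757.Spec

set_option autoImplicit false

namespace Vale.Agent.P042.H757

open Finset

lemma two_pow_card_primeFactors (n : ℕ) (hn : 1 ≤ n) : 2 ^ n.primeFactors.card ≤ n := by
  have h1 : ∏ p ∈ n.primeFactors, 2 ≤ ∏ p ∈ n.primeFactors, p :=
    Finset.prod_le_prod' (fun p hp => (Nat.prime_of_mem_primeFactors hp).two_le)
  rw [Finset.prod_const] at h1
  exact h1.trans (Nat.le_of_dvd hn (Nat.prod_primeFactors_dvd n))

lemma card_primeFactors_le (n N : ℕ) (hn : 1 ≤ n) (hN : n ≤ N) :
    n.primeFactors.card ≤ Nat.log 2 N := by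
  have h1 := (two_pow_card_primeFactors n hn).trans hN
  exact Nat.le_log_of_pow_le (by norm_num) h1

/-- multiplicativity of the weight -/
lemma W_mul (z : ℝ) {s t : ℕ} (h : s.Coprime t) : W z (s * t) = W z s * W z t := by
  unfold W
  rw [h.primeFactors_mul, Finset.prod_union h.disjoint_primeFactors]
  congr 1
  · apply Finset.prod_congr rfl
    intro p hp
    rw [Nat.factorization_mul_apply_of_coprime h]
    have h2 : t.factorization p = 0 := by
      apply Nat.factorization_eq_zero_of_not_dvd
      intro h3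
      have hp' := Nat.prime_of_mem_primeFactors hp
      have h4 := Nat.dvd_gcd (Nat.dvd_of_mem_primeFactors hp) h3
      rw [h] at h4
      exact hp'.one_lt.ne' (Nat.dvd_one.1 h4)
    rw [h2, add_zero]
  · apply Finset.prod_congr rfl
    intro p hp
    rw [Nat.factorization_mul_apply_of_coprime h]
    have h2 : s.factorization p = 0 := by
      apply Nat.factorization_eq_zero_of_not_dvd
      intro h3
      have hp' := Nat.prime_of_mem_primeFactors hp
      have h4 := Nat.dvd_gcd h3 (Nat.dvd_of_mem_primeFactors hp)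
      rw [h] at h4
      exact hp'.one_lt.ne' (Nat.dvd_one.1 h4)
    rw [h2, zero_add]

lemma W_squarefree (z : ℝ) {t : ℕ} (h : Squarefree t) : W z t = z ^ t.primeFactors.card := by
  unfold W
  rw [← Finset.prod_const]
  apply Finset.prod_congr rfl
  intro p hp
  have h1 : t.factorization p = 1 := by
    have h2 : t.factorization p ≤ 1 := h.natFactorization_le_one p
    have h3 : 1 ≤ t.factorization p :=
      (Nat.prime_of_mem_primeFactors hp).factorization_pos_of_dvd h.ne_zero
        (Nat.dvd_of_mem_primeFactors hp)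
    omega
  unfold wt
  rw [h1, if_pos rfl]

/-- the decomposition of `n` -/
lemma decomp (R : ℕ → Prop) (n : ℕ) (hn : 1 ≤ n) : ∃ s t : ℕ, s * t = n ∧ 1 ≤ s ∧ 1 ≤ t ∧
    Squarefree t ∧ s.Coprime t ∧ (∀ p, p.Prime → p ∣ t → R p) ∧
    (∀ p, p.Prime → s.factorization p = 1 → ¬ R p) := by
  classical
  set T := n.primeFactors.filter (fun p => n.factorization p = 1 ∧ R p) with hT
  set t := ∏ p ∈ T, p with ht
  have hTp : ∀ p ∈ T, p.Prime := fun p hp =>
    Nat.prime_of_mem_primeFactors (Finset.mem_filter.1 hp).1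
  have htn : t ∣ n := by
    refine dvd_trans ?_ (Nat.prod_primeFactors_dvd n)
    exact Finset.prod_dvd_prod_of_subset _ _ _ (Finset.filter_subset _ _)
  obtain ⟨s, hs⟩ := htn
  have hn0 : n ≠ 0 := by omega
  have ht0 : t ≠ 0 := by
    rintro h0
    rw [h0, zero_mul] at hs
    exact hn0 hs
  have hs0 : s ≠ 0 := by
    rintro h0
    rw [h0, mul_zero] at hs
    exact hn0 hs
  have hmem : ∀ p, p.Prime → p ∣ t → p ∈ T := by
    intro p hp hpt
    rw [ht, hp.prime.dvd_finsetProd_iff] at hpt
    obtain ⟨q, hq, hpq⟩ := hpt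
    have := (Nat.prime_dvd_prime_iff_eq hp (hTp q hq)).1 hpq
    rw [this]
    exact hq
  have hfac : ∀ p, n.factorization p = t.factorization p + s.factorization p := by
    intro p
    rw [hs, Nat.factorization_mul ht0 hs0]
    rfl
  have htf : ∀ p ∈ T, 1 ≤ t.factorization p := fun p hp =>
    (hTp p hp).factorization_pos_of_dvd ht0 (Finset.dvd_prod_of_mem _ hp)
  refine ⟨s, t, by rw [hs, mul_comm], Nat.pos_of_ne_zero hs0, Nat.pos_of_ne_zero ht0, ?_, ?_, ?_, ?_⟩
  · rw [Nat.squarefree_iff_factorization_le_one ht0]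
    intro p
    by_cases hp : p.Prime
    · by_cases hpt : p ∣ t
      · have h1 := (Finset.mem_filter.1 (hmem p hp hpt)).2.1
        have h2 := hfac p
        omega
      · rw [Nat.factorization_eq_zero_of_not_dvd hpt]
        exact Nat.zero_le _
    · rw [Nat.factorization_eq_zero_of_not_prime _ hp]
      exact Nat.zero_le _
  · apply Nat.Coprime.symm
    apply Nat.Coprime.symm
    rw [Nat.coprime_iff_gcd_eq_one]
    by_contra hg
    obtain ⟨p, hp, hpg⟩ := Nat.exists_prime_and_dvd hg
    have h1 := hpg.trans (Nat.gcd_dvd_left _ _)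
    have h2 := hpg.trans (Nat.gcd_dvd_right _ _)
    have h3 := hmem p hp h2
    have h4 := (Finset.mem_filter.1 h3).2.1
    have h5 := hfac p
    have h6 := htf p h3
    have h7 := hp.factorization_pos_of_dvd hs0 h1
    omega
  · intro p hp hpt
    exact (Finset.mem_filter.1 (hmem p hp hpt)).2.2
  · intro p hp hps hR
    have h5 := hfac p
    have hps' : p ∣ s := by
      by_contra h
      rw [Nat.factorization_eq_zero_of_not_dvd h] at hps
      omega
    by_cases hpt : p ∣ t
    · have h3 := hmem p hp hpt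
      have h4 := (Finset.mem_filter.1 h3).2.1
      have h6 := htf p h3
      omega
    · rw [Nat.factorization_eq_zero_of_not_dvd hpt] at h5
      apply hpt
      apply Finset.dvd_prod_of_mem
      rw [hT, Finset.mem_filter, Nat.mem_primeFactors]
      exact ⟨⟨hp, by rw [hs]; exact hps'.mul_left _, hn0⟩, by omega, hR⟩

end Vale.Agent.P042.H757
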