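import Vale.Agent.P042.R2.H757.PerN
import Vale.Agent.P042.R2.H668.Eul2

set_option autoImplicit false

/-!
The sharp weight: exponent `1 - 1/k`.
-/

namespace Vale.Agent.P042.H757.Sh

open Finset
open Vale.Agent.P042.H668.E2 (Wt wt2)

/-- the sharp weight of `n` -/
noncomputable def V (z : ℝ) (n : ℕ) : ℝ := Wt (wt2 z) n

/-- multiplicativity of the weight -/
lemma V_mul (z : ℝ) {s t : ℕ} (h : s.Coprime t) : V z (s * t) = V z s * V z t := by
  unfold V Wt
  rw [h.primeFactors_mul, Finset.prod_union h.disjoint_primeFactors]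
  congr 1
  · apply Finset.prod_congr rfl
    intro p hp
    rw [Nat.factorization_mul_apply_of_coprime h]
    have h2 : t.factorization p = 0 := by
      apply Nat.factorization_eq_zero_of_not_dvd
      intro h3
      have hp' := Nat.prime_of_mem_primeFactors hp
      have h4 := Nat.dvd_gcd (Nat.dvd_of_mem_primeFactors hp) h3
      rw [h] at h4
      exact hp'.one_lt.ne' (Nat.dvd_one.1 h4)
    rw [h2, add_zero]
  · apply Finset.prod_congr rfl
    intro p hp
    rw [Nat.factorization_mul_apply_of_coprime h]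
    have h2 : s.factorization p = 0 := by
      apply Nat.factorization_eq_zero_of_not_dvd
      intro h3
      have hp' := Nat.prime_of_mem_primeFactors hp
      have h4 := Nat.dvd_gcd h3 (Nat.dvd_of_mem_primeFactors hp)
      rw [h] at h4
      exact hp'.one_lt.ne' (Nat.dvd_one.1 h4)
    rw [h2, zero_add]

lemma V_squarefree (z : ℝ) {t : ℕ} (h : Squarefree t) : V z t = z ^ t.primeFactors.card := by
  unfold V Wt
  rw [← Finset.prod_const]
  apply Finset.prod_congr rfl
  intro p hp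
  have h1 : t.factorization p = 1 := by
    have h2 : t.factorization p ≤ 1 := h.natFactorization_le_one p
    have h3 : 1 ≤ t.factorization p :=
      (Nat.prime_of_mem_primeFactors hp).factorization_pos_of_dvd h.ne_zero
        (Nat.dvd_of_mem_primeFactors hp)
    omega
  unfold wt2
  rw [h1, if_pos rfl]

/-- one prime -/
lemma one_prime2 (k p e : ℕ) (β : ℝ) (hβ : β * k ≤ 1) (hβ0 : 0 ≤ β) (hk : 2 ≤ k) (hp : 2 ≤ p)
    (he : 1 ≤ e) :
    (((p ^ ((e + k - 1) / k) : ℕ) : ℝ) ^ k) ^ β ≤ (p : ℝ) ^ ((e + 1) / 2) := by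
  have hp0 : (0 : ℝ) ≤ p := Nat.cast_nonneg p
  have hp1 : (1 : ℝ) ≤ p := by exact_mod_cast (by omega : 1 ≤ p)
  have h1 : (e + k - 1) / k ≤ (e + 1) / 2 := by
    have h2 : (e + k - 1) / k * k ≤ e + k - 1 := Nat.div_mul_le_self (e + k - 1) k
    have h5 : 2 * ((e + 1) / 2) + 1 ≥ e + 1 := by omega
    have h6 : 1 ≤ (e + 1) / 2 := by omega
    apply Nat.le_of_lt_succ
    apply (Nat.div_lt_iff_lt_mul (by omega : 0 < k)).2
    obtain ⟨k', rfl⟩ := Nat.exists_eq_add_of_le hk
    obtain ⟨f, hf⟩ := Nat.exists_eq_add_of_le h6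
    rw [hf] at h5 ⊢
    have : 0 ≤ f * k' := Nat.zero_le _
    have h7 : Nat.succ (1 + f) * (2 + k') = 4 + 2 * k' + 2 * f + f * k' := by
      rw [Nat.succ_eq_add_one]
      ring
    rw [h7]
    omega
  rw [Nat.cast_pow, ← pow_mul, ← Real.rpow_natCast, ← Real.rpow_natCast, ← Real.rpow_mul hp0]
  apply Real.rpow_le_rpow_of_exponent_le hp1
  have h2 : (((e + k - 1) / k : ℕ) : ℝ) ≤ (((e + 1) / 2 : ℕ) : ℝ) := by exact_mod_cast h1
  have h3 : (0 : ℝ) ≤ (((e + k - 1) / k : ℕ) : ℝ) := Nat.cast_nonneg _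
  rw [Nat.cast_mul]
  calc (((e + k - 1) / k : ℕ) : ℝ) * (k : ℝ) * β = (((e + k - 1) / k : ℕ) : ℝ) * (β * k) := by ring
    _ ≤ (((e + k - 1) / k : ℕ) : ℝ) * 1 := mul_le_mul_of_nonneg_left hβ h3
    _ ≤ _ := by rw [mul_one]; exact h2

/-- bound for `ws` -/
lemma ws_bound2 (k s : ℕ) (β : ℝ) (hβ : β * k ≤ 1) (hβ0 : 0 ≤ β) (hk : 2 ≤ k) (z : ℝ)
    (hz : 1 ≤ z) (F : Finset ℕ)
    (hF : ∀ p ∈ F, 1 ≤ p) (hs : ∀ p, p.Prime → s.factorization p = 1 → p ∈ F) :
    (((ws k s : ℕ) : ℝ) ^ k) ^ β ≤ (∏ p ∈ F, (p : ℝ)) * V z s := by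
  classical
  have h1 : (((ws k s : ℕ) : ℝ) ^ k) ^ β =
      ∏ p ∈ s.primeFactors,
        (((p ^ ((s.factorization p + k - 1) / k) : ℕ) : ℝ) ^ k) ^ β := by
    unfold ws
    rw [Nat.cast_prod, ← Finset.prod_pow, ← Real.finsetProd_rpow]
    intro p _
    positivity
  rw [h1]
  have h2 : ∀ p ∈ s.primeFactors,
      (((p ^ ((s.factorization p + k - 1) / k) : ℕ) : ℝ) ^ k) ^ β ≤
        (if p ∈ F then (p : ℝ) else 1) * wt2 z p (s.factorization p) := by
    intro p hp
    have hpp := Nat.prime_of_mem_primeFactors hp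
    have hp1 : (1 : ℝ) ≤ p := by exact_mod_cast hpp.one_lt.le
    have hf1 : (1 : ℝ) ≤ if p ∈ F then (p : ℝ) else 1 := by
      split_ifs
      · exact hp1
      · exact le_refl _
    have hpos : 1 ≤ s.factorization p :=
      hpp.factorization_pos_of_dvd (Nat.mem_primeFactors.1 hp).2.2 (Nat.dvd_of_mem_primeFactors hp)
    have h3 := one_prime2 k p (s.factorization p) β hβ hβ0 hk hpp.two_le hpos
    refine h3.trans ?_
    rcases eq_or_lt_of_le hpos with he | he
    · rw [if_pos (hs p hpp he.symm), ← he]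
      unfold wt2
      rw [if_pos rfl]
      have h4 : (1 + 1) / 2 = 1 := by norm_num
      rw [h4, pow_one]
      nlinarith only [hz, hp1]
    · unfold wt2
      rw [if_neg (show ¬ s.factorization p = 1 by omega)]
      have h4 : (0 : ℝ) ≤ (p : ℝ) ^ ((s.factorization p + 1) / 2) := by positivity
      exact le_mul_of_one_le_left h4 hf1
  have h3 : ∏ p ∈ s.primeFactors,
        (((p ^ ((s.factorization p + k - 1) / k) : ℕ) : ℝ) ^ k) ^ β ≤
      ∏ p ∈ s.primeFactors, ((if p ∈ F then (p : ℝ) else 1) * wt2 z p (s.factorization p)) :=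
    Finset.prod_le_prod (fun p _ => by positivity) h2
  refine h3.trans ?_
  rw [Finset.prod_mul_distrib]
  have hW0 : 0 ≤ ∏ p ∈ s.primeFactors, wt2 z p (s.factorization p) := by
    apply Finset.prod_nonneg
    intro p _
    unfold wt2
    split_ifs
    · linarith only [hz]
    · positivity
  apply mul_le_mul_of_nonneg_right _ hW0
  rw [← Finset.prod_filter, ← Nat.cast_prod, ← Nat.cast_prod]
  apply Nat.cast_le.2
  apply Finset.prod_le_prod_of_subset_of_one_le'
  · intro p hp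
    exact (Finset.mem_filter.1 hp).2
  · intro p hp _
    exact hF p hp

/-- the inequality for one element -/
lemma per_n2 {r : ℕ} (col : ℕ → Fin r) (a k : ℕ) (ha : 1 ≤ a) (hk : 2 ≤ k) (N B : ℕ)
    (Br : ℝ) (hBr : 1 ≤ Br) (hBB : (B : ℝ) ≤ Br) (δ : ℝ) (hδ : 0 < δ)
    (β : ℝ) (hβk : β * k ≤ 1) (hβ0 : 0 < β)
    (A : Finset ℕ) (hAN : A ⊆ Icc 1 N)
    (hex : Exch col N A) (hfree : MonoFree a k A)
    (hB : ∀ v, Rich col v → Nat.log 2 N + 1 <
      ((Icc 1 B).filter (fun p => p.Prime ∧ col p = v)).card)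
    (hpair : ∀ v, Rich col v → ∀ u D : ℕ, 1 ≤ u → 1 ≤ D →
      ((a * u * D : ℕ) : ℝ) ≤ (N : ℝ) ^ (1 - δ) →
      ∃ p q m : ℕ, p.Prime ∧ q.Prime ∧ col p = v ∧ col q = v ∧ ¬ p ∣ u ∧ ¬ q ∣ u ∧ 1 ≤ m ∧
        q = p + a * D * m ^ k ∧ u * q ≤ N)
    (F : Finset ℕ) (hF : ∀ p ∈ F, 1 ≤ p) (hFm : ∀ p, p.Prime → ¬ Rich col (col p) → p ∈ F)
    (n : ℕ) (hn : n ∈ A) :
    (1 : ℝ) ≤ (a * ∏ p ∈ F, (p : ℝ)) * ((N : ℝ) / n) * (N : ℝ) ^ (-((1 - δ) * β)) *
      V (Br ^ ((k : ℝ) * β)) n := by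
  classical
  obtain ⟨hn1, hnN⟩ := Finset.mem_Icc.1 (hAN hn)
  obtain ⟨s, t, hst, hs1, ht1, hsq, hco, hR, hs⟩ := decomp (fun p => Rich col (col p)) n hn1
  obtain ⟨t', h1, h2, h3, h4, h5⟩ := exists_small col N B A hAN hex hB s t (by rw [hst]; exact hn)
    hsq hco hR
  have hk2 : (2 : ℝ) ≤ k := by exact_mod_cast hk
  have hβ1 : β ≤ 1 := by nlinarith only [hβk, hβ0, hk2]
  set z : ℝ := Br ^ ((k : ℝ) * β) with hz
  have hz1 : 1 ≤ z := Real.one_le_rpow hBr (by positivity)
  have hWn : V z n = V z s * z ^ t.primeFactors.card := by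
    rw [← hst, V_mul z hco, V_squarefree z hsq]
  have hws := ws_bound2 k s β hβk hβ0.le hk z hz1 F hF (fun p hp h => hFm p hp (hs p hp h))
  have hN1 : (1 : ℝ) ≤ N := by exact_mod_cast hn1.trans hnN
  have hN0 : (0 : ℝ) < N := by linarith only [hN1]
  have hn1r : (1 : ℝ) ≤ n := by exact_mod_cast hn1
  have hn0r : (0 : ℝ) < n := by linarith only [hn1r]
  have hnNr : (n : ℝ) ≤ N := by exact_mod_cast hnN
  have ha1 : (1 : ℝ) ≤ a := by exact_mod_cast ha
  set PF : ℝ := ∏ p ∈ F, (p : ℝ) with hPF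
  have hPF0 : 0 ≤ PF := Finset.prod_nonneg (fun p _ => Nat.cast_nonneg p)
  have hWs0 : 0 ≤ V z s := by
    unfold V Wt
    apply Finset.prod_nonneg
    intro p _
    unfold wt2
    split_ifs
    · linarith only [hz1]
    · positivity
  -- it is enough to bound `N ^ ((1 - δ) β) n ≤ a PF N W`
  have key : (N : ℝ) ^ ((1 - δ) * β) * n ≤ (a * PF) * N * V z n := by
    rcases Nat.eq_zero_or_pos t.primeFactors.card with hκ | hκ
    · have h6 := real_aux N n β δ hn1r hnNr hβ0.le hβ1 hδ.le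
      refine h6.trans ?_
      have ht0 : t = 1 := by
        rw [Finset.card_eq_zero, Nat.primeFactors_eq_empty] at hκ
        omega
      have hns : n = s := by rw [← hst, ht0, mul_one]
      have h7 : (n : ℝ) ^ β ≤ (((ws k s : ℕ) : ℝ) ^ k) ^ β := by
        apply Real.rpow_le_rpow hn0r.le _ hβ0.le
        rw [hns]
        have := Nat.le_of_dvd (pow_pos (ws_pos k s) k) (dvd_ws k s (by omega) hs1)
        exact_mod_cast this
      rw [hWn, hκ, pow_zero, mul_one]
      have h8 : (n : ℝ) ^ β ≤ PF * V z s := h7.trans hws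
      calc (N : ℝ) * (n : ℝ) ^ β ≤ N * (PF * V z s) := mul_le_mul_of_nonneg_left h8 hN0.le
        _ = 1 * (PF * N * V z s) := by ring
        _ ≤ a * (PF * N * V z s) := mul_le_mul_of_nonneg_right ha1 (by positivity)
        _ = _ := by ring
    · rw [← h4] at hκ
      obtain ⟨p1, hp1⟩ := Finset.card_pos.1 hκ
      have hp1p := Nat.prime_of_mem_primeFactors hp1
      obtain ⟨t1, ht1'⟩ := Nat.dvd_of_mem_primeFactors hp1
      have ht'0 : t' ≠ 0 := h1.ne_zero
      have ht10 : 1 ≤ t1 := by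
        rcases Nat.eq_zero_or_pos t1 with h | h
        · exact absurd (by rw [ht1', h, mul_zero]) ht'0
        · exact h
      have hp1t1 : ¬ p1 ∣ t1 := by
        intro h
        have h6 : p1 * p1 ∣ t' := by
          rw [ht1']
          exact Nat.mul_dvd_mul_left p1 h
        exact hp1p.one_lt.ne' (Nat.isUnit_iff.1 (h1 p1 h6))
      have hp1s : ¬ p1 ∣ s := by
        intro h
        have h6 := Nat.dvd_gcd h (Dvd.intro t1 ht1'.symm : p1 ∣ t')
        rw [h2] at h6
        exact hp1p.one_lt.ne' (Nat.dvd_one.1 h6)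
      set u := s * t1 with hu
      set w := ws k s * t1 with hw
      have hu1 : 1 ≤ u := Nat.mul_pos hs1 ht10
      have hw1 : 1 ≤ w := Nat.mul_pos (ws_pos k s) ht10
      have huw : u ∣ w ^ k := by
        rw [hw, mul_pow, hu]
        exact Nat.mul_dvd_mul (dvd_ws k s (by omega) hs1) (dvd_pow_self t1 (by omega))
      obtain ⟨D, hD⟩ := huw
      have hD1 : 1 ≤ D := by
        rcases Nat.eq_zero_or_pos D with h | h
        · rw [h, mul_zero] at hD
          have := pow_pos (show 0 < w from hw1) k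
          omega
        · exact h
      have hup1 : u * p1 = s * t' := by rw [hu, ht1']; ring
      have hlt : (N : ℝ) ^ (1 - δ) < ((a * w ^ k : ℕ) : ℝ) := by
        by_contra hcon
        rw [not_lt] at hcon
        obtain ⟨p, q, m, hp, hq, hcp, hcq, hpu, hqu, hm, hqe, huq⟩ := hpair (col p1)
          (h5 p1 hp1p (Nat.dvd_of_mem_primeFactors hp1)).1 u D hu1 hD1
          (by rw [mul_assoc, ← hD]; exact hcon)
        have hp1u : ¬ p1 ∣ u := fun h => (hp1p.dvd_mul.1 h).elim hp1s hp1t1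
        have hA1 : u * p1 ∈ A := by rw [hup1]; exact h3
        have hpq : p ≤ q := by rw [hqe]; exact Nat.le_add_right _ _
        have hA2 := hex u p1 p hp1p hp hcp.symm hp1u hpu hA1
          ((Nat.mul_le_mul_left u hpq).trans huq)
        have hA3 := hex u p1 q hp1p hq hcq.symm hp1u hqu hA1 huq
        refine hfree _ hA2 _ hA3 (w * m) (Nat.mul_pos hw1 hm) ?_
        rw [hqe, mul_pow, hD]
        ring
      have h6 : ((N : ℝ) ^ (1 - δ)) ^ β ≤ (((a * w ^ k : ℕ) : ℝ)) ^ β :=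
        Real.rpow_le_rpow (Real.rpow_nonneg hN0.le _) hlt.le hβ0.le
      rw [← Real.rpow_mul hN0.le] at h6
      have h7 : (((a * w ^ k : ℕ) : ℝ)) ^ β =
          (a : ℝ) ^ β * ((((ws k s : ℕ) : ℝ) ^ k) ^ β * ((t1 : ℝ) ^ k) ^ β) := by
        rw [hw, mul_pow]
        push_cast
        rw [Real.mul_rpow (Nat.cast_nonneg a) (by positivity),
          Real.mul_rpow (by positivity) (by positivity)]
      have h8 : (a : ℝ) ^ β ≤ a := by
        calc (a : ℝ) ^ β ≤ (a : ℝ) ^ (1 : ℝ) := Real.rpow_le_rpow_of_exponent_le ha1 hβ1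
          _ = a := Real.rpow_one _
      have h9 : ((t1 : ℝ) ^ k) ^ β ≤ z ^ t.primeFactors.card := by
        have h10 : (t1 : ℝ) ≤ Br ^ t'.primeFactors.card := by
          have h11 : (t1 : ℝ) ≤ t' := by
            have : t1 ≤ t' := by
              rw [ht1']
              exact Nat.le_mul_of_pos_left t1 hp1p.pos
            exact_mod_cast this
          refine h11.trans (squarefree_le_pow t' h1 Br (fun p hp hpt => ?_))
          have : (p : ℝ) ≤ B := by exact_mod_cast (h5 p hp hpt).2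
          exact this.trans hBB
        rw [h4] at h10
        have h12 : ((t1 : ℝ) ^ k) ^ β ≤ (((Br ^ t.primeFactors.card) : ℝ) ^ k) ^ β := by
          apply Real.rpow_le_rpow (by positivity) _ hβ0.le
          exact pow_le_pow_left₀ (Nat.cast_nonneg t1) h10 k
        refine h12.trans (le_of_eq ?_)
        have hBr0 : 0 ≤ Br := by linarith only [hBr]
        rw [hz, ← Real.rpow_natCast, ← Real.rpow_natCast, ← Real.rpow_natCast,
          ← Real.rpow_mul hBr0, ← Real.rpow_mul hBr0, ← Real.rpow_mul hBr0]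
        congr 1
        ring
      rw [h7] at h6
      have h13 : (N : ℝ) ^ ((1 - δ) * β) ≤ a * (PF * V z s * z ^ t.primeFactors.card) := by
        refine h6.trans ?_
        apply mul_le_mul h8 _ (by positivity) (by linarith only [ha1])
        exact mul_le_mul hws h9 (by positivity) (by positivity)
      rw [hWn]
      calc (N : ℝ) ^ ((1 - δ) * β) * n ≤ (a * (PF * V z s * z ^ t.primeFactors.card)) * N :=
            mul_le_mul h13 hnNr hn0r.le (by positivity)
        _ = _ := by ring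
  have h14 : (0 : ℝ) < (N : ℝ) ^ ((1 - δ) * β) := Real.rpow_pos_of_pos hN0 _
  rw [Real.rpow_neg hN0.le]
  rw [show (a * PF) * ((N : ℝ) / n) * ((N : ℝ) ^ ((1 - δ) * β))⁻¹ * V z n =
    ((a * PF) * N * V z n) / ((N : ℝ) ^ ((1 - δ) * β) * n) by
      field_simp]
  rw [le_div_iff₀ (by positivity), one_mul]
  exact key

end Vale.Agent.P042.H757.Sh
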