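import Vale.Agent.P042.R2.H757.Main
import Vale.Agent.P042.R2.H757.Sharp

set_option autoImplicit false

/-!
The sharp main theorem: exponent `1 - 1/k + ε`.
-/

namespace Vale.Agent.P042.H757.Sh

open Finset
open Vale.Agent.P042.H668.E2 (Wt wt2 eul2)

theorem rowMain2 (hpair : StPair) (hmer : StMer) (hnum : StNum)
    (hsmall : StSmall) : ∀ a k : ℕ, 1 ≤ a → 2 ≤ k → ∀ (r : ℕ) (col : ℕ → Fin r),
    (∀ v, Few col v ∨ Rich col v) →
    ∀ ε : ℝ, 0 < ε → ∃ C : ℝ, 0 < C ∧ ∀ (N : ℕ) (A : Finset ℕ), 1 ≤ N → A ⊆ Icc 1 N →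
      Exch col N A → MonoFree a k A →
      (A.card : ℝ) ≤ C * (N : ℝ) ^ (1 - 1 / (k : ℝ) + ε) := by
  classical
  intro a k ha hk r col hcol ε hε
  set δ : ℝ := min (ε / 4) (1 / 2) with hδ
  have hδ0 : 0 < δ := lt_min (by linarith only [hε]) (by norm_num)
  have hδ1 : δ < 1 := lt_of_le_of_lt (min_le_right _ _) (by norm_num)
  have hδε : δ ≤ ε / 4 := min_le_left _ _
  obtain ⟨j0, hj0⟩ := exists_nat_gt (4 / ε)
  set j : ℕ := j0 + 2 with hjdef
  have hj2 : 2 ≤ j := by omega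
  have hj2r : (2 : ℝ) ≤ j := by exact_mod_cast hj2
  have hj0r : (0 : ℝ) < (j : ℝ) + 1 := by positivity
  have hjε : 1 / ((j : ℝ) + 1) ≤ ε / 4 := by
    rw [div_le_div_iff₀ hj0r (by norm_num)]
    have h1 : (4 : ℝ) / ε < (j : ℝ) + 1 := by
      have : (j0 : ℝ) ≤ (j : ℝ) := by exact_mod_cast (by omega : j0 ≤ j)
      linarith only [hj0, this]
    rw [div_lt_iff₀ hε] at h1
    linarith only [h1]
  set β : ℝ := (j : ℝ) / ((j + 1) * k) with hβ
  have hk2 : (2 : ℝ) ≤ k := by exact_mod_cast hk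
  have hk0 : (0 : ℝ) < (k : ℝ) := by linarith only [hk2]
  have hβ0 : 0 < β := by rw [hβ]; positivity
  have hβk : β * k = j / (j + 1) := by
    rw [hβ]
    field_simp
  have hβk1 : β * k ≤ 1 := by
    rw [hβk, div_le_one hj0r]
    linarith only
  have hβ1 : β ≤ 1 := by nlinarith only [hβk1, hβ0, hk2]
  have hβe : 1 / (k : ℝ) - β ≤ ε / 4 := by
    have h1 : 1 / (k : ℝ) - β = (1 / ((j : ℝ) + 1)) * (1 / k) := by
      rw [hβ]
      field_simp
      ring
    rw [h1]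
    have h2 : 1 / (k : ℝ) ≤ 1 := by
      rw [div_le_one hk0]
      linarith only [hk2]
    calc (1 / ((j : ℝ) + 1)) * (1 / k) ≤ (1 / ((j : ℝ) + 1)) * 1 :=
          mul_le_mul_of_nonneg_left h2 (by positivity)
      _ ≤ ε / 4 := by rw [mul_one]; exact hjε
  -- thresholds
  have hP : ∃ N1 : ℕ, ∀ N, N1 ≤ N → ∀ v, Rich col v → ∀ u D : ℕ, 1 ≤ u → 1 ≤ D →
      ((a * u * D : ℕ) : ℝ) ≤ (N : ℝ) ^ (1 - δ) →
      ∃ p q m : ℕ, p.Prime ∧ q.Prime ∧ col p = v ∧ col q = v ∧ ¬ p ∣ u ∧ ¬ q ∣ u ∧ 1 ≤ m ∧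
        q = p + a * D * m ^ k ∧ u * q ≤ N := by
    have h1 : ∀ v : Fin r, ∃ N1 : ℕ, ∀ N, N1 ≤ N → Rich col v → ∀ u D : ℕ, 1 ≤ u → 1 ≤ D →
      ((a * u * D : ℕ) : ℝ) ≤ (N : ℝ) ^ (1 - δ) →
      ∃ p q m : ℕ, p.Prime ∧ q.Prime ∧ col p = v ∧ col q = v ∧ ¬ p ∣ u ∧ ¬ q ∣ u ∧ 1 ≤ m ∧
        q = p + a * D * m ^ k ∧ u * q ≤ N := by
      intro v
      by_cases hv : Rich col v
      · obtain ⟨N1, h⟩ := hpair a k ha hk r col v hv δ hδ0 hδ1
        exact ⟨N1, fun N hN _ => h N hN⟩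
      · exact ⟨0, fun N _ h => absurd h hv⟩
    choose g hg using h1
    refine ⟨univ.sup g, fun N hN v hv => hg v N ?_ hv⟩
    exact (Finset.le_sup (f := g) (Finset.mem_univ v)).trans hN
  have hS : ∃ N2 : ℕ, ∀ N, N2 ≤ N → ∀ v, Rich col v → Nat.log 2 N + 1 <
      ((Icc 1 ⌊(Real.log N) ^ (1 + 1 / (2 * j : ℝ))⌋₊).filter
        (fun p => p.Prime ∧ col p = v)).card := by
    have h1 : ∀ v : Fin r, ∃ N2 : ℕ, ∀ N, N2 ≤ N → Rich col v → Nat.log 2 N + 1 <
      ((Icc 1 ⌊(Real.log N) ^ (1 + 1 / (2 * j : ℝ))⌋₊).filter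
        (fun p => p.Prime ∧ col p = v)).card := by
      intro v
      by_cases hv : Rich col v
      · obtain ⟨N1, h⟩ := hsmall j hj2 r col v hv
        exact ⟨N1, fun N hN _ => h N hN⟩
      · exact ⟨0, fun N _ h => absurd h hv⟩
    choose g hg using h1
    refine ⟨univ.sup g, fun N hN v hv => hg v N ?_ hv⟩
    exact (Finset.le_sup (f := g) (Finset.mem_univ v)).trans hN
  obtain ⟨N1, hP⟩ := hP
  obtain ⟨N2, hS⟩ := hS
  obtain ⟨K, hK, hmer⟩ := hmer
  obtain ⟨C, hC, hnum⟩ := hnum j hj2 K (ε / 2) hK (by linarith only [hε])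
  set F : Finset ℕ := (finite_notRich col hcol).toFinset with hF
  set PF : ℝ := ∏ p ∈ F, (p : ℝ) with hPF
  have hFp : ∀ p ∈ F, 1 ≤ p := by
    intro p hp
    rw [hF, Set.Finite.mem_toFinset] at hp
    exact hp.1.one_lt.le
  have hFm : ∀ p, p.Prime → ¬ Rich col (col p) → p ∈ F := by
    intro p hp hpR
    rw [hF, Set.Finite.mem_toFinset]
    exact ⟨hp, hpR⟩
  have hPF0 : 0 ≤ PF := Finset.prod_nonneg (fun p _ => Nat.cast_nonneg p)
  set M : ℕ := max (max N1 N2) 3 with hM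
  have ha1 : (1 : ℝ) ≤ a := by exact_mod_cast ha
  refine ⟨M + a * PF * C, by positivity, ?_⟩
  intro N A hN1 hAN hex hfree
  have hN1r : (1 : ℝ) ≤ N := by exact_mod_cast hN1
  have hN0r : (0 : ℝ) < N := by linarith only [hN1r]
  have hexp0 : (0 : ℝ) ≤ 1 - 1 / (k : ℝ) + ε := by
    have h2 : 1 / (k : ℝ) ≤ 1 := by
      rw [div_le_one hk0]
      linarith only [hk2]
    linarith only [h2, hε]
  have hNe1 : (1 : ℝ) ≤ (N : ℝ) ^ (1 - 1 / (k : ℝ) + ε) := Real.one_le_rpow hN1r hexp0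
  rcases lt_or_ge N M with hNM | hNM
  · have h1 : A.card ≤ N := by
      have := Finset.card_le_card hAN
      rwa [Nat.card_Icc, Nat.add_sub_cancel] at this
    have h2 : (A.card : ℝ) ≤ M := by exact_mod_cast h1.trans hNM.le
    calc (A.card : ℝ) ≤ M * 1 := by rw [mul_one]; exact h2
      _ ≤ (M + a * PF * C) * (N : ℝ) ^ (1 - 1 / (k : ℝ) + ε) := by
          apply mul_le_mul _ hNe1 (by norm_num) (by positivity)
          have : 0 ≤ a * PF * C := by positivity
          linarith only [this]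
  · have hN3 : 3 ≤ N := (le_max_right _ _).trans hNM
    have hNN1 : N1 ≤ N := ((le_max_left _ _).trans (le_max_left _ _)).trans hNM
    have hNN2 : N2 ≤ N := ((le_max_right _ _).trans (le_max_left _ _)).trans hNM
    have hlog1 : 1 ≤ Real.log N := by
      rw [Real.le_log_iff_exp_le hN0r]
      have h1 := Real.exp_one_lt_d9
      have h2 : (3 : ℝ) ≤ N := by exact_mod_cast hN3
      linarith only [h1, h2]
    set Br : ℝ := (Real.log N) ^ (1 + 1 / (2 * j : ℝ)) with hBr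
    have hBr1 : 1 ≤ Br := Real.one_le_rpow hlog1 (by positivity)
    have hBr0 : 0 ≤ Br := by linarith only [hBr1]
    have hper := per_n2 col a k ha hk N ⌊Br⌋₊ Br hBr1 (Nat.floor_le hBr0) δ hδ0 β hβk1 hβ0
      A hAN hex hfree (hS N hNN2) (hP N hNN1) F hFp hFm
    rw [← hPF] at hper
    set z : ℝ := Br ^ ((k : ℝ) * β) with hz
    have hz1 : 1 ≤ z := Real.one_le_rpow hBr1 (by positivity)
    have hzeq : z = (Real.log N) ^ ((2 * j + 1 : ℝ) / (2 * j + 2)) := by
      rw [hz, hBr, ← Real.rpow_mul (by linarith only [hlog1])]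
      congr 1
      rw [mul_comm (k : ℝ) β, hβk]
      field_simp
    have hWnn : ∀ n, 0 ≤ V z n := by
      intro n
      unfold V Wt
      apply Finset.prod_nonneg
      intro p _
      unfold wt2
      split_ifs
      · linarith only [hz1]
      · positivity
    have hsum : (A.card : ℝ) ≤ (a * PF) * (N : ℝ) ^ (1 - (1 - δ) * β) *
        ∑ n ∈ Icc 1 N, V z n / n := by
      have h1 : (A.card : ℝ) = ∑ n ∈ A, (1 : ℝ) := by
        rw [Finset.sum_const, nsmul_eq_mul, mul_one]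
      rw [h1, Finset.mul_sum]
      have h2 : ∀ n ∈ A, (1 : ℝ) ≤ (a * PF) * (N : ℝ) ^ (1 - (1 - δ) * β) * (V z n / n) := by
        intro n hn
        have h3 := hper n hn
        have hn1 := (Finset.mem_Icc.1 (hAN hn)).1
        have hn0 : (0 : ℝ) < n := by exact_mod_cast hn1
        refine h3.trans (le_of_eq ?_)
        rw [Real.rpow_sub hN0r, Real.rpow_one, Real.rpow_neg hN0r.le]
        field_simp
      calc ∑ n ∈ A, (1 : ℝ) ≤ ∑ n ∈ A, (a * PF) * (N : ℝ) ^ (1 - (1 - δ) * β) * (V z n / n) :=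
            Finset.sum_le_sum h2
        _ ≤ _ := by
            apply Finset.sum_le_sum_of_subset_of_nonneg hAN
            intro n _ _
            have := hWnn n
            positivity
    have h4 : ∑ n ∈ Icc 1 N, V z n / n ≤ C * (N : ℝ) ^ (ε / 2) := by
      refine (eul2 N z hz1).trans (le_trans (Real.exp_le_exp.2 ?_) (hnum N hN3))
      have h5 := hmer N hN3
      have h6 : 0 ≤ ∑ p ∈ (Icc 1 N).filter Nat.Prime, (1 : ℝ) / p :=
        Finset.sum_nonneg (fun p _ => by positivity)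
      rw [← hzeq]
      have h7 : 0 ≤ K * (1 + Real.log (Real.log N)) := h6.trans h5
      calc (z + 4) * ∑ p ∈ (Icc 1 N).filter Nat.Prime, (1 : ℝ) / p
          ≤ (z + 4) * (K * (1 + Real.log (Real.log N))) :=
            mul_le_mul_of_nonneg_left h5 (by linarith only [hz1])
        _ ≤ (z + 5) * (K * (1 + Real.log (Real.log N))) :=
            mul_le_mul_of_nonneg_right (by linarith only) h7
        _ = _ := by ring
    have h8 : (A.card : ℝ) ≤ (a * PF * C) * (N : ℝ) ^ (1 - 1 / (k : ℝ) + ε) := by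
      refine hsum.trans ?_
      calc (a * PF) * (N : ℝ) ^ (1 - (1 - δ) * β) * ∑ n ∈ Icc 1 N, V z n / n
          ≤ (a * PF) * (N : ℝ) ^ (1 - (1 - δ) * β) * (C * (N : ℝ) ^ (ε / 2)) :=
            mul_le_mul_of_nonneg_left h4 (by positivity)
        _ = (a * PF * C) * ((N : ℝ) ^ (1 - (1 - δ) * β) * (N : ℝ) ^ (ε / 2)) := by ring
        _ = (a * PF * C) * (N : ℝ) ^ (1 - (1 - δ) * β + ε / 2) := by
            rw [← Real.rpow_add hN0r]
        _ ≤ _ := by
            apply mul_le_mul_of_nonneg_left _ (by positivity)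
            apply Real.rpow_le_rpow_of_exponent_le hN1r
            have h9 : δ * β ≤ δ := by nlinarith only [hβ1, hδ0]
            have h10 : 1 - (1 - δ) * β = 1 - β + δ * β := by ring
            rw [h10]
            linarith only [h9, hβe, hδε]
    refine h8.trans ?_
    apply mul_le_mul_of_nonneg_right _ (by positivity)
    have : (0 : ℝ) ≤ M := Nat.cast_nonneg M
    linarith only [this]

end Vale.Agent.P042.H757.Sh
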