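import Vale.Agent.P042.R2.H757.PerU

set_option autoImplicit false

/-!
The uniform form of row ALL.
-/

namespace Vale.Agent.P042.H757.U

open Finset

/-- the same as `ExchT` for all prime factors -/
def ExchAllT (T : Set ℕ) (col : ℕ → ℕ) (N : ℕ) (A : Finset ℕ) : Prop :=
  ∀ u p q : ℕ, p.Prime → q.Prime → p ∉ T → q ∉ T → col p = col q →
    u * p ∈ A → u * q ≤ N → u * q ∈ A

/-- Row ALLU: theorem rowAllU (h : StPairU) : StAllU. -/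
def StAllU : Prop :=
  ∀ a k : ℕ, 1 ≤ a → 2 ≤ k → ∀ c : ℝ, c < 1 → ∀ x0 t0 : ℕ, ∃ Q : ℕ,
    ∀ (T : Set ℕ) (col : ℕ → ℕ), (∀ p ∈ T, p ≤ t0) →
      (∀ p : ℕ, p.Prime → p ∉ T → RichSet c x0 (cls T col p)) →
      ∀ (N : ℕ) (A : Finset ℕ), A ⊆ Icc 1 N → ExchAllT T col N A → MonoFree a k A →
        ∀ n ∈ A, ∀ p : ℕ, p.Prime → p ∣ n → p ≤ Q

end Vale.Agent.P042.H757.U
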